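import Vale.Agent.P241.H402.Join
import Vale.Agent.P251.I.CofTriangle

/-!
# P241, block UB-G: acyclic spaces form a class closed under extensions

`Nul F N X` : `X` is a finite cell space and `N ⊗ Σ X = 0`.
-/

open CategoryTheory MonoidalCategory Limits Pretriangulated Topology OnePoint
  Vale.Agent.P251.G Vale.Agent.P251.G.LC Vale.Agent.P251.I Vale.Agent.P251.T
  Vale.Agent.P093.N2 Vale.Agent.P241.H588

universe v u

set_option linter.unusedSectionVars false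

noncomputable section

namespace Vale.Agent.P241.H402

variable {T : Type u} [Category.{v} T] [Preadditive T] [HasZeroObject T]
    [HasShift T ℤ] [∀ n : ℤ, (shiftFunctor T n).Additive] [Pretriangulated T]
    [MonoidalCategory T] [SymmetricCategory T] [TensorTriangulated T] (F : SpaceFunctor T) (N : T)

/-- `X` is a finite cell space and `N ⊗ Σ X = 0` -/
def Nul (X : LC) : Prop := ∃ h : LC.FC X, IsZero (N ⊗ F.S.obj ⟨X, h⟩)

variable {F N}

theorem isZero_tensor_left {Z : T} (h : IsZero Z) : IsZero (N ⊗ Z) := by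
  rw [IsZero.iff_id_eq_zero] at h ⊢
  rw [← MonoidalCategory.whiskerLeft_id, h, MonoidalPreadditive.whiskerLeft_zero]

theorem isZero_tensor_right {Z : T} (h : IsZero Z) : IsZero (Z ⊗ N) := by
  rw [IsZero.iff_id_eq_zero] at h ⊢
  rw [← id_whiskerRight, h, MonoidalPreadditive.zero_whiskerRight]

theorem Nul.of_iso {X Y : LC} (h : Nul F N X) (e : X ≅ Y) : Nul F N Y := by
  obtain ⟨h1, h2⟩ := h
  have h3 : LC.FC Y := h1.hequiv (HEquiv.of_iso e)
  refine ⟨h3, h2.of_iso ?_⟩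
  let e' : (⟨X, h1⟩ : FCat) ≅ ⟨Y, h3⟩ :=
    ⟨FCat.hom e.hom, FCat.hom e.inv, ObjectProperty.hom_ext _ e.hom_inv_id,
      ObjectProperty.hom_ext _ e.inv_hom_id⟩
  exact whiskerLeftIso N (F.S.mapIso e'.symm)

theorem Nul.tensor_left {X : LC} (h : Nul F N X) {W : LC} (hW : LC.FC W) : Nul F N (W ⊗ X) := by
  obtain ⟨h1, h2⟩ := h
  have h3 : LC.FC (W ⊗ X) := hW.tensor h1
  refine ⟨h3, ?_⟩
  let A : FCat := ⟨W, hW⟩
  let B : FCat := ⟨X, h1⟩
  have e1 : N ⊗ F.S.obj (A ⊗ B) ≅ F.S.obj A ⊗ (N ⊗ F.S.obj B) :=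
    whiskerLeftIso N (Functor.Monoidal.μIso F.S A B).symm ≪≫ (α_ _ _ _).symm ≪≫
      whiskerRightIso (β_ N (F.S.obj A)) (F.S.obj B) ≪≫ α_ _ _ _
  exact (isZero_tensor_left h2).of_iso e1

theorem isZero_mid {Δ : Triangle T} (hΔ : Δ ∈ distTriang T) (h1 : IsZero Δ.obj₁)
    (h3 : IsZero Δ.obj₃) : IsZero Δ.obj₂ := by
  rw [IsZero.iff_id_eq_zero]
  obtain ⟨g, hg⟩ := Triangle.coyoneda_exact₂ Δ hΔ (𝟙 _) (h3.eq_of_tgt _ _)
  rw [hg, h1.eq_of_tgt g 0, zero_comp]

theorem Nul.ext {A Y : LC} {i : A ⟶ Y} (hi : Cofib i) (hA : Nul F N A) (hC : Nul F N (cof i)) :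
    Nul F N Y := by
  obtain ⟨h1, h2⟩ := hA
  obtain ⟨h3, h4⟩ := hC
  have h5 : LC.FC Y := FC.ext hi h1 h3
  refine ⟨h5, ?_⟩
  let A' : FCat := ⟨A, h1⟩
  let Y' : FCat := ⟨Y, h5⟩
  let i' : A' ⟶ Y' := FCat.hom i
  have h6 := TensorTriangulated.distinguished N _ (F.cof_distinguished i' hi)
  exact isZero_mid h6 h2 h4

/-- acyclic spaces form a class closed under extensions -/
theorem cls_nul : Cls (Nul F N) where
  empty X hX := by
    have h1 : LC.FC X := cls_fc.empty X hX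
    exact ⟨h1, isZero_tensor_left (F.isZero (X := ⟨X, h1⟩) hX)⟩
  homeo h e := h.of_iso (LC.ofHomeo e)
  line {X} h := by
    exact h.tensor_left (W := RR) fcRR
  ext z hz u hu h hc hA hU := Nul.ext hc hA (hU.of_iso (cofClosedOpen z hz u hu h).symm)

end Vale.Agent.P241.H402
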