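import Vale.Agent.P241.H402.EE
import Mathlib.Analysis.SpecialFunctions.Complex.Circle
import Mathlib.Analysis.SpecialFunctions.Complex.CircleMap
import Mathlib.Analysis.SpecialFunctions.Trigonometric.Arctan

/-!
# P241, block UB-G: the circle and faithful characters

`ex q s = exp (2 π i s / q)`; a faithful character of a group of order `q` has the values `ex q j`,
`j` an integer, and takes all of them.
-/

open Topology Vale.Agent.P093.N2 Vale.Agent.P251.G Vale.Agent.P241.H588 Real

noncomputable section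

namespace Vale.Agent.P241.H402

/-- the point `exp (2 π i s / q)` of the circle -/
def ex (q : ℕ) (s : ℝ) : Circle := Circle.exp (2 * π / q * s)

@[continuity, fun_prop]
theorem continuous_ex (q : ℕ) : Continuous (ex q) := by
  unfold ex
  fun_prop

theorem ex_add (q : ℕ) (s t : ℝ) : ex q (s + t) = ex q s * ex q t := by
  rw [ex, ex, ex, ← Circle.exp_add, mul_add]

theorem ex_zero (q : ℕ) : ex q 0 = 1 := by rw [ex, mul_zero, Circle.exp_zero]

theorem ex_eq_iff {q : ℕ} (hq : q ≠ 0) {s t : ℝ} : ex q s = ex q t ↔ ∃ m : ℤ, s = t + m * q := by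
  have hq' : (q : ℝ) ≠ 0 := Nat.cast_ne_zero.mpr hq
  have hpi : (2 * π) ≠ 0 := by positivity
  rw [ex, ex, Circle.exp_eq_exp]
  refine exists_congr fun m => ?_
  constructor
  · intro h
    have h1 : 2 * π / q * (s - t - m * q) = 0 := by
      have : 2 * π / q * (m * q) = m * (2 * π) := by field_simp
      rw [mul_sub, mul_sub, this, h]
      ring
    rcases mul_eq_zero.mp h1 with h2 | h2
    · exact absurd h2 (div_ne_zero hpi hq')
    · linarith
  · rintro rfl
    field_simp

theorem ex_pow {q : ℕ} (hq : q ≠ 0) (s : ℝ) : ex q s ^ q = ex 1 s := by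
  have hq' : (q : ℝ) ≠ 0 := Nat.cast_ne_zero.mpr hq
  rw [ex, ← Circle.exp_natCast_mul]
  rw [ex]
  congr 1
  field_simp
  simp

theorem ex_surjective {q : ℕ} (hq : q ≠ 0) : Function.Surjective (ex q) := by
  intro z
  have hq' : (q : ℝ) ≠ 0 := Nat.cast_ne_zero.mpr hq
  obtain ⟨x, rfl⟩ := Circle.exp_surjective z
  refine ⟨x * q / (2 * π), ?_⟩
  rw [ex]
  congr 1
  field_simp

theorem exists_int {q : ℕ} (hq : q ≠ 0) {z : Circle} (h : z ^ q = 1) : ∃ j : ℤ, z = ex q j := by
  obtain ⟨s, rfl⟩ := ex_surjective hq z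
  rw [ex_pow hq, ← ex_zero 1, ex_eq_iff one_ne_zero] at h
  obtain ⟨m, hm⟩ := h
  refine ⟨m, ?_⟩
  rw [hm]
  simp

section character

variable {C : Type} [Group C] [Finite C] {lam : C →* Circle}

theorem card_ne_zero : Nat.card C ≠ 0 := Nat.card_pos.ne'

omit [Finite C] in
theorem character_pow (g : C) : lam g ^ Nat.card C = 1 := by
  rw [← map_pow, pow_card_eq_one', map_one]

/-- a faithful character takes the value `exp (2 π i / q)` -/
theorem exists_gen (hl : Function.Injective lam) : ∃ g : C, lam g = ex (Nat.card C) 1 := by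
  have hq : Nat.card C ≠ 0 := card_ne_zero
  have : NeZero (Nat.card C) := ⟨hq⟩
  choose j hj using fun g : C => exists_int hq (character_pow (lam := lam) g)
  have hi : Function.Injective fun g : C => ((j g : ℤ) : ZMod (Nat.card C)) := by
    intro g h hgh
    apply hl
    rw [hj g, hj h, ex_eq_iff hq]
    have h1 : ((Nat.card C : ℤ)) ∣ j g - j h :=
      (ZMod.intCast_eq_intCast_iff_dvd_sub _ _ _).mp (Eq.symm hgh)
    obtain ⟨m, hm⟩ := h1
    refine ⟨m, ?_⟩
    have h2 : j g = j h + m * (Nat.card C : ℤ) := by linarith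
    rw [h2]
    push_cast
    ring
  have hb := hi.bijective_of_nat_card_le (by rw [Nat.card_zmod])
  obtain ⟨g, hg⟩ := hb.2 ((1 : ℤ) : ZMod (Nat.card C))
  refine ⟨g, ?_⟩
  rw [hj g, ex_eq_iff hq]
  have h1 : ((Nat.card C : ℤ)) ∣ j g - 1 :=
    (ZMod.intCast_eq_intCast_iff_dvd_sub _ _ _).mp (Eq.symm hg)
  obtain ⟨m, hm⟩ := h1
  refine ⟨m, ?_⟩
  have h2 : j g = 1 + m * (Nat.card C : ℤ) := by linarith
  rw [h2]
  push_cast
  ring

/-- if a value of the character carries `ex q s` to `ex q t` then `t - s` is an integer -/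
theorem int_of_mul {g : C} {s t : ℝ} (h : lam g * ex (Nat.card C) s = ex (Nat.card C) t) :
    ∃ m : ℤ, t = s + m := by
  have hq : Nat.card C ≠ 0 := card_ne_zero
  have h1 := congrArg (· ^ Nat.card C) h
  simp only [mul_pow, character_pow, one_mul, ex_pow hq] at h1
  obtain ⟨m, hm⟩ := (ex_eq_iff one_ne_zero).mp h1.symm
  exact ⟨m, by rw [hm]; simp⟩

end character

/-! ### The points of the circle -/

section pts

variable {C : Type} [Group C] (lam : C →* Circle)

/-- the point `exp (2 π i s / q)` of `EE lam Unit`, `q` the order of the group -/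
def cir (s : ℝ) : EE lam Unit := EE.mk lam (fun _ => (ex (Nat.card C) s : ℂ)) (by
  simp [nsq])

@[simp] theorem cir_v (s : ℝ) (i : Unit) : (cir lam s).v i = (ex (Nat.card C) s : ℂ) := rfl

@[continuity, fun_prop]
theorem continuous_cir : Continuous (cir lam) :=
  EE.continuous_mk (continuous_pi fun _ => continuous_subtype_val.comp (continuous_ex _)) _

variable {lam}

theorem cir_eq_iff {s t : ℝ} : cir lam s = cir lam t ↔ ex (Nat.card C) s = ex (Nat.card C) t := by
  constructor
  · intro h
    exact Circle.ext (congrArg (fun x : EE lam Unit => x.v ()) h)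
  · intro h
    exact EE.ext (funext fun _ => by rw [cir_v, cir_v, h])

theorem smul_cir_eq_iff {g : C} {s t : ℝ} :
    g • cir lam s = cir lam t ↔ lam g * ex (Nat.card C) s = ex (Nat.card C) t := by
  constructor
  · intro h
    refine Circle.ext ?_
    have h1 := congrArg (fun x : EE lam Unit => x.v ()) h
    rw [Circle.coe_mul]
    exact h1
  · intro h
    refine EE.ext (funext fun _ => ?_)
    rw [EE.smul_v, Pi.smul_apply, cir_v, cir_v, ← h, Circle.coe_mul, smul_eq_mul]

theorem cir_surjective [Finite C] : Function.Surjective (cir lam) := by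
  intro x
  have h1 : Complex.normSq (x.v ()) = 1 := by
    have h2 := x.nsq_v
    simpa [nsq] using h2
  have h3 : ‖x.v ()‖ = 1 := by
    rw [← Complex.sq_norm] at h1
    exact (pow_eq_one_iff_of_nonneg (norm_nonneg _) two_ne_zero).mp h1
  obtain ⟨s, hs⟩ := ex_surjective (card_ne_zero (C := C)) ⟨x.v (), mem_sphere_zero_iff_norm.mpr h3⟩
  refine ⟨s, EE.ext (funext fun _ => ?_)⟩
  rw [cir_v, hs]

/-- shift by the generator -/
theorem smul_cir {g : C} (hg : lam g = ex (Nat.card C) 1) (s : ℝ) :
    g • cir lam s = cir lam (s + 1) := by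
  rw [smul_cir_eq_iff, hg, ← ex_add, add_comm]

theorem cir_add_int (s : ℝ) {g : C} (hg : lam g = ex (Nat.card C) 1) (m : ℤ) :
    cir lam (s + m) = g ^ m • cir lam s := by
  symm
  rw [smul_cir_eq_iff, map_zpow, hg, add_comm, ex_add]
  congr 1
  induction m using Int.induction_on with
  | zero => simp [ex_zero]
  | succ n ih =>
    rw [zpow_add_one, ih, ← ex_add]
    push_cast
    rfl
  | pred n ih =>
    rw [zpow_sub_one, ih, mul_inv_eq_iff_eq_mul, ← ex_add]
    push_cast
    congr 1
    ring

theorem eq_of_smul_cir [Finite C] (hl : Function.Injective lam) {g : C} {s t : ℝ}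
    (h : g • cir lam s = cir lam t) (hst : |t - s| < 1) : s = t ∧ g = 1 := by
  obtain ⟨m, hm⟩ := int_of_mul (smul_cir_eq_iff.mp h)
  have hm0 : m = 0 := by
    have h1 : |((m : ℤ) : ℝ)| < 1 := by
      have : t - s = m := by rw [hm]; ring
      rwa [this] at hst
    rw [← Int.cast_abs] at h1
    have h2 : |m| < 1 := by exact_mod_cast h1
    exact Int.abs_lt_one_iff.mp h2
  have hst' : s = t := by rw [hm, hm0]; simp
  subst hst'
  exact ⟨rfl, EE.free hl h⟩

end pts

/-! ### The open interval -/

/-- the open unit interval is homeomorphic to the line -/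
def ioo1 : Set.Ioo (0 : ℝ) 1 ≃ₜ Set.Ioo (-(π / 2)) (π / 2) where
  toFun x := ⟨π * (x.1 - 1 / 2), by
    have := x.2.1
    have := x.2.2
    constructor <;> nlinarith [pi_pos]⟩
  invFun y := ⟨y.1 / π + 1 / 2, by
    have h1 := y.2.1
    have h2 := y.2.2
    have h3 := pi_pos
    constructor
    · have : -(1 / 2) < y.1 / π := by rw [lt_div_iff₀ h3]; linarith
      linarith
    · have : y.1 / π < 1 / 2 := by rw [div_lt_iff₀ h3]; linarith
      linarith⟩
  left_inv x := Subtype.ext (by
    have h3 := pi_pos.ne'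
    change π * (x.1 - 1 / 2) / π + 1 / 2 = x.1
    field_simp
    ring)
  right_inv y := Subtype.ext (by
    have h3 := pi_pos.ne'
    change π * (y.1 / π + 1 / 2 - 1 / 2) = y.1
    field_simp
    ring)
  continuous_toFun := by fun_prop
  continuous_invFun := by fun_prop

/-- the open unit interval is homeomorphic to the line -/
def iooR : Set.Ioo (0 : ℝ) 1 ≃ₜ ℝ :=
  ioo1.trans ((Homeomorph.setCongr (by rfl)).trans
    ((Real.tanPartialHomeomorph.toHomeomorphSourceTarget).trans
      ((Homeomorph.setCongr (by rfl)).trans (Homeomorph.Set.univ ℝ))))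

/-- the open unit interval as an open subset of the circle -/
theorem isOpenEmbedding_cir {C : Type} [Group C] [Finite C] {lam : C →* Circle}
    (hl : Function.Injective lam) :
    IsOpenEmbedding (fun s : Set.Ioo (0 : ℝ) 1 => cir lam s.1) := by
  let toE : Circle → EE lam Unit := fun z => EE.mk lam (fun _ => (z : ℂ)) (by simp [nsq])
  have hq : Nat.card C ≠ 0 := card_ne_zero
  have hq' : (0 : ℝ) < Nat.card C := Nat.cast_pos.mpr (Nat.pos_of_ne_zero hq)
  have hE : IsOpenMap toE := by
    have h1 : ∃ e : Circle ≃ₜ EE lam Unit, ⇑e = toE := by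
      refine ⟨{
        toFun := toE
        invFun := fun x => ⟨x.v (), ?_⟩
        left_inv := fun z => rfl
        right_inv := fun x => rfl
        continuous_toFun := EE.continuous_mk (continuous_pi fun _ => continuous_subtype_val) _
        continuous_invFun := ?_ }, rfl⟩
      · have h2 := x.nsq_v
        have h1 : Complex.normSq (x.v ()) = 1 := by simpa [nsq] using h2
        have h3 : ‖x.v ()‖ = 1 := by
          rw [← Complex.sq_norm] at h1
          exact (pow_eq_one_iff_of_nonneg (norm_nonneg _) two_ne_zero).mp h1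
        exact mem_sphere_zero_iff_norm.mpr h3
      · exact Continuous.subtype_mk ((continuous_apply ()).comp EE.continuous_v) _
    obtain ⟨e, he⟩ := h1
    rw [← he]
    exact e.isOpenMap
  refine IsOpenEmbedding.of_continuous_injective_isOpenMap ?_ ?_ ?_
  · exact (continuous_cir lam).comp continuous_subtype_val
  · intro s t h
    have h1 : (1 : C) • cir lam s.1 = cir lam t.1 := by rw [one_smul]; exact h
    refine Subtype.ext (eq_of_smul_cir hl h1 ?_).1
    rw [abs_lt]
    constructor <;> linarith [s.2.1, s.2.2, t.2.1, t.2.2]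
  · have h2 : (fun s : Set.Ioo (0 : ℝ) 1 => cir lam s.1) =
        toE ∘ Circle.exp ∘ (fun x : ℝ => 2 * π / Nat.card C * x) ∘ Subtype.val := rfl
    rw [h2]
    have h3 : (2 * π / Nat.card C) ≠ 0 := by positivity
    refine hE.comp (isLocalHomeomorph_circleExp.isOpenMap.comp
      ((Homeomorph.mulLeft₀ _ h3).isOpenMap.comp isOpen_Ioo.isOpenEmbedding_subtypeVal.isOpenMap))

end Vale.Agent.P241.H402
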