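import Vale.Agent.P093.N2.Desc
import Vale.Agent.P251.G.Glue
import Vale.Agent.P251.G.Gr

/-!
# P241, block UB-G: classes of spaces closed under extensions, a criterion for cofibrations

* `Cls P` : `P` contains the empty spaces and is closed under homeomorphisms, products with the
  line and extensions along closed cofibrations.
* `cofib_of_quot`: let `q : W × X → Y` be a proper surjection, `W` compact. A map
  `W × I → W × I` which is compatible with `q` and has the formal properties of a retraction of the
  cylinder shows that a closed embedding `A → Y` is a cofibration.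
-/

open CategoryTheory MonoidalCategory Filter Topology OnePoint Vale.Agent.P251.G
  Vale.Agent.P251.G.LC Vale.Agent.P093.N2

noncomputable section

namespace Vale.Agent.P241.H402

/-- classes of spaces which are closed under extensions -/
structure Cls (P : LC → Prop) : Prop where
  empty : ∀ X : LC, IsEmpty X → P X
  homeo : ∀ {X Y : LC}, P X → (X ≃ₜ Y) → P Y
  line : ∀ {X : LC}, P X → P (LC.of (ℝ × X))
  ext : ∀ {A U Y : LC} (z : A → Y) (hz : IsClosedEmbedding z) (u : U → Y),
    IsOpenEmbedding u → IsCompl (Set.range z) (Set.range u) → Cofib (ofClosed z hz) →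
    P A → P U → P Y

/-- finite cell spaces -/
theorem cls_fc : Cls FC where
  empty X hX := by
    exact FC.empty.of_homeo (Homeomorph.empty (X := (Empty : Type)) (Y := X))
  homeo h e := h.of_homeo e
  line {X} h := by
    have h1 : FC (RR ⊗ X) :=
      ((FC.sph 1).of_homeo (Y := RR) (Homeomorph.funUnique (Fin 1) ℝ)).tensor h
    exact h1
  ext z hz u hu h hc hA hU := FC.of_ext hc hA (cofClosedOpen z hz u hu h) hU

theorem Cls.reals {P : LC → Prop} (hP : Cls P) {X : LC} (h : P X) (n : ℕ) :
    P (LC.of ((Fin n → ℝ) × X)) := by
  induction n with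
  | zero =>
    exact hP.homeo (Y := LC.of ((Fin 0 → ℝ) × X)) h
      { toFun := fun x => (Fin.elim0, x)
        invFun := fun p => p.2
        left_inv := fun _ => rfl
        right_inv := fun p => Prod.ext (funext fun i => i.elim0) rfl
        continuous_toFun := continuous_const.prodMk continuous_id
        continuous_invFun := continuous_snd }
  | succ n ih =>
    refine hP.homeo (Y := LC.of ((Fin (n + 1) → ℝ) × X)) (hP.line ih) ?_
    exact ((Homeomorph.prodAssoc ℝ (Fin n → ℝ) X).symm).trans
      ((Fin.consEquivL (R := ℝ) (fun _ : Fin (n + 1) => ℝ)).toHomeomorph.prodCongr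
        (Homeomorph.refl X))

section crit

variable {W : Type} [TopologicalSpace W] [CompactSpace W] [T2Space W] {X A Y : LC}

/-- a criterion for properness -/
theorem tendsto_of_comp {P Q R : Type} [TopologicalSpace Q] [TopologicalSpace R] {l : Filter P}
    {f : P → Q} {g : Q → R} (hg : Continuous g) (h : Tendsto (g ∘ f) l (cocompact R)) :
    Tendsto f l (cocompact Q) :=
  (tendsto_comap_iff.mpr h).mono_right (comap_cocompact_le hg)

/-- **A criterion for cofibrations.** -/
theorem cofib_of_quot {z : A → Y} (hz : IsClosedEmbedding z) (q : W × X → Y)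
    (hq : IsProperMap q) (hs : Function.Surjective q) (r : W × unitInterval → W)
    (hr : Continuous r) (u : W × unitInterval → unitInterval) (hu : Continuous u)
    (h : ∀ w x v y t, q (w, x) = q (v, y) →
      q (r (w, t), x) = q (r (v, t), y) ∧ u (w, t) = u (v, t))
    (h0 : ∀ w, r (w, 0) = w ∧ u (w, 0) = 0)
    (hmem : ∀ w x t, q (w, x) ∈ Set.range z → q (r (w, t), x) = q (w, x) ∧ u (w, t) = t)
    (hran : ∀ w x t, u (w, t) = 0 ∨ q (r (w, t), x) ∈ Set.range z) :
    Cofib (ofClosed z hz) := by
  let WX : LC := LC.of (W × X)
  let π : WX ⟶ Y := ofIsProper (X := WX) q hq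
  have hπ : Function.Surjective (app π) := surjective_ofIsProper hq hs
  have hπc : ∀ (w : W) (x : X), app π (((w, x) : W × X) : OnePoint (W × X)) =
      ((q (w, x) : Y) : OnePoint Y) := fun _ _ => rfl
  let g : (W × X) × unitInterval → Y × unitInterval := fun p =>
    (q (r (p.1.1, p.2), p.1.2), u (p.1.1, p.2))
  have hg : Continuous g := by
    refine Continuous.prodMk (hq.continuous.comp ?_) ?_
    · exact (hr.comp ((continuous_fst.comp continuous_fst).prodMk continuous_snd)).prodMk
        (continuous_snd.comp continuous_fst)
    · exact hu.comp ((continuous_fst.comp continuous_fst).prodMk continuous_snd)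
  have hgp : Tendsto g (cocompact _) (cocompact _) := by
    have h1 : g = Prod.map q id ∘ fun p : (W × X) × unitInterval =>
        ((r (p.1.1, p.2), p.1.2), u (p.1.1, p.2)) := rfl
    rw [h1]
    have h2 : IsProperMap (Prod.map q (id : unitInterval → unitInterval)) :=
      hq.prodMap isProperMap_id
    refine (isProperMap_iff_tendsto_cocompact.mp h2).2.comp ?_
    refine tendsto_of_comp (g := fun p : (W × X) × unitInterval => p.1.2)
      (continuous_snd.comp continuous_fst) ?_
    have h3 : ((fun p : (W × X) × unitInterval => p.1.2) ∘
        fun p : (W × X) × unitInterval => ((r (p.1.1, p.2), p.1.2), u (p.1.1, p.2))) =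
        Prod.snd ∘ Prod.fst := rfl
    rw [h3]
    exact tendsto_snd_cocompact.comp tendsto_fst_cocompact
  let Φ : WX ⊗ II ⟶ Y ⊗ II :=
    LC.ofProper (X := LC.of ((W × X) × unitInterval)) (Y := LC.of (Y × unitInterval)) g hg hgp
  have hΦ : ∀ (w : W) (x : X) (t : unitInterval), app Φ (smash (((w, x) : W × X) :
      OnePoint (W × X)) (t : OnePoint unitInterval)) =
      smash ((q (r (w, t), x) : Y) : OnePoint Y) ((u (w, t) : unitInterval) :
        OnePoint unitInterval) := fun _ _ _ => rfl
  have hΦi : ∀ t : unitInterval, app Φ (smash (∞ : OnePoint (W × X))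
      (t : OnePoint unitInterval)) = ∞ := fun t => by
    rw [smash_infty_left]
    exact app_infty Φ
  have hπi : ∀ x : OnePoint (W × X), app π x = ∞ ↔ x = ∞ := by
    intro x
    induction x using OnePoint.rec with
    | infty => exact ⟨fun _ => rfl, fun _ => app_infty π⟩
    | coe x => exact ⟨fun h => absurd h (OnePoint.coe_ne_infty _),
        fun h => absurd h (OnePoint.coe_ne_infty _)⟩
  have hrange : ∀ y : Y, ((y : Y) : OnePoint Y) ∈ Set.range (app (ofClosed z hz)) ↔
      y ∈ Set.range z := by
    intro y
    constructor
    · rintro ⟨a, ha⟩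
      induction a using OnePoint.rec with
      | infty => exact absurd (ha.symm.trans (app_infty _)) (OnePoint.coe_ne_infty _)
      | coe a => exact ⟨a, OnePoint.coe_injective ha⟩
    · rintro ⟨a, rfl⟩
      exact ⟨(a : OnePoint A), rfl⟩
  refine cofib_of_cover (C := OnePoint (W × X)) (i := ofClosed z hz) ?_ (app π)
    (continuous_app π) hπ
    (fun p => app Φ (smash p.1 (p.2 : OnePoint unitInterval))) ?_ ?_ ?_ ?_ ?_
  · intro a b hab
    induction a using OnePoint.rec with
    | infty =>
      induction b using OnePoint.rec with
      | infty => rfl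
      | coe b => exact absurd (hab.symm.trans (app_infty _)) (OnePoint.coe_ne_infty _)
    | coe a =>
      induction b using OnePoint.rec with
      | infty => exact absurd (hab.trans (app_infty _)) (OnePoint.coe_ne_infty _)
      | coe b => exact congrArg _ (hz.injective (OnePoint.coe_injective hab))
  · exact (continuous_app Φ).comp (continuous_smash.comp (continuous_fst.prodMk
      (OnePoint.continuous_coe.comp continuous_snd)))
  · intro x y t hxy
    induction x using OnePoint.rec with
    | infty =>
      have : y = ∞ := (hπi y).mp (hxy.symm.trans (app_infty π))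
      rw [this]
    | coe x =>
      induction y using OnePoint.rec with
      | infty => exact absurd (hxy.trans (app_infty π)) (OnePoint.coe_ne_infty _)
      | coe y =>
        obtain ⟨h1, h2⟩ := h x.1 x.2 y.1 y.2 t (OnePoint.coe_injective hxy)
        change smash ((q (r (x.1, t), x.2) : Y) : OnePoint Y) ((u (x.1, t) : unitInterval) :
            OnePoint unitInterval) = smash ((q (r (y.1, t), y.2) : Y) : OnePoint Y)
            ((u (y.1, t) : unitInterval) : OnePoint unitInterval)
        rw [h1, h2]
  · intro x
    induction x using OnePoint.rec with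
    | infty =>
      rw [app_infty, smash_infty_left]
      exact hΦi 0
    | coe x =>
      obtain ⟨h1, h2⟩ := h0 x.1
      change smash ((q (r (x.1, 0), x.2) : Y) : OnePoint Y) ((u (x.1, 0) : unitInterval) :
            OnePoint unitInterval) = _
      rw [h1, h2]
      rfl
  · intro x t hx
    induction x using OnePoint.rec with
    | infty =>
      rw [app_infty, smash_infty_left]
      exact hΦi t
    | coe x =>
      obtain ⟨h1, h2⟩ := hmem x.1 x.2 t ((hrange _).mp hx)
      change smash ((q (r (x.1, t), x.2) : Y) : OnePoint Y) ((u (x.1, t) : unitInterval) :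
            OnePoint unitInterval) = smash ((q (x.1, x.2) : Y) : OnePoint Y) _
      rw [h1, h2]
  · intro x t
    induction x using OnePoint.rec with
    | infty => exact ⟨∞, 0, (hΦi t).trans (smash_infty_left _).symm, Or.inl rfl⟩
    | coe x =>
      exact ⟨_, u (x.1, t), rfl, (hran x.1 x.2 t).imp_right fun h => (hrange _).mpr h⟩

end crit

end Vale.Agent.P241.H402
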