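import Vale.Agent.P241.H402.Circ
import Vale.Agent.P241.H402.Cls

/-!
# P241, block UB-G: the circle

`circle_step`: for a faithful character `lam` of `C` and a class `P` closed under extensions, `P X`
implies `P ((S¹ × X) / C)`.
-/

open CategoryTheory MonoidalCategory Filter Topology OnePoint Vale.Agent.P251.G
  Vale.Agent.P251.G.LC Vale.Agent.P093.N2 Vale.Agent.P241.H588

set_option linter.unusedSectionVars false

noncomputable section

namespace Vale.Agent.P241.H402

/-! ### The retraction of the square -/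

/-- the first coordinate of the radial retraction of the square -/
def sqR (p : unitInterval × unitInterval) : unitInterval :=
  Set.projIcc 0 1 zero_le_one (1 / 2 + ((p.1 : ℝ) - 1 / 2) / (1 - (p.2 : ℝ) / 2))

/-- the second coordinate of the radial retraction of the square -/
def sqU (p : unitInterval × unitInterval) : unitInterval :=
  Set.projIcc 0 1 zero_le_one ((p.2 : ℝ) - 4 * min (p.1 : ℝ) (1 - (p.1 : ℝ)))

theorem sq_pos (t : unitInterval) : 0 < 1 - (t : ℝ) / 2 := by linarith [t.2.2]

theorem continuous_sqR : Continuous sqR := by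
  refine continuous_projIcc.comp (continuous_const.add (Continuous.div ?_ ?_ ?_))
  · fun_prop
  · fun_prop
  · exact fun p => (sq_pos p.2).ne'

theorem continuous_sqU : Continuous sqU := by
  refine continuous_projIcc.comp ?_
  fun_prop

theorem sqR_zero_right (s : unitInterval) : sqR (s, 0) = s := by
  have h : (1 / 2 + ((s : ℝ) - 1 / 2) / (1 - ((0 : unitInterval) : ℝ) / 2)) = s := by
    norm_num
  exact (congrArg _ h).trans (Set.projIcc_val zero_le_one s)

theorem sqU_zero_right (s : unitInterval) : sqU (s, 0) = 0 := by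
  refine Set.projIcc_of_le_left zero_le_one ?_
  have h1 := s.2.1
  have h2 := s.2.2
  have h3 : 0 ≤ min (s : ℝ) (1 - s) := le_min h1 (by linarith)
  change (0 : ℝ) - 4 * min (s : ℝ) (1 - s) ≤ 0
  linarith

theorem sqR_zero_left (t : unitInterval) : sqR (0, t) = 0 := by
  refine Set.projIcc_of_le_left zero_le_one ?_
  have h := sq_pos t
  change 1 / 2 + ((0 : ℝ) - 1 / 2) / (1 - (t : ℝ) / 2) ≤ 0
  have h1 : ((0 : ℝ) - 1 / 2) / (1 - (t : ℝ) / 2) ≤ -(1 / 2) := by
    rw [div_le_iff₀ h]
    linarith [t.2.1]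
  linarith

theorem sqR_one_left (t : unitInterval) : sqR (1, t) = 1 := by
  refine Set.projIcc_of_right_le zero_le_one ?_
  have h := sq_pos t
  change 1 ≤ 1 / 2 + ((1 : ℝ) - 1 / 2) / (1 - (t : ℝ) / 2)
  have h1 : (1 / 2 : ℝ) ≤ ((1 : ℝ) - 1 / 2) / (1 - (t : ℝ) / 2) := by
    rw [le_div_iff₀ h]
    linarith [t.2.1]
  linarith

theorem sqU_zero_left (t : unitInterval) : sqU (0, t) = t := by
  have h : ((t : ℝ) - 4 * min (((0 : unitInterval) : ℝ)) (1 - ((0 : unitInterval) : ℝ))) = t := by
    simp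
  exact (congrArg _ h).trans (Set.projIcc_val zero_le_one t)

theorem sqU_one_left (t : unitInterval) : sqU (1, t) = t := by
  have h : ((t : ℝ) - 4 * min (((1 : unitInterval) : ℝ)) (1 - ((1 : unitInterval) : ℝ))) = t := by
    simp
  exact (congrArg _ h).trans (Set.projIcc_val zero_le_one t)

theorem sq_range (s t : unitInterval) : sqU (s, t) = 0 ∨ sqR (s, t) = 0 ∨ sqR (s, t) = 1 := by
  by_cases h : (t : ℝ) ≤ 4 * min (s : ℝ) (1 - s)
  · left
    exact Set.projIcc_of_le_left zero_le_one (by
      change (t : ℝ) - 4 * min (s : ℝ) (1 - s) ≤ 0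
      linarith)
  · right
    rw [not_le] at h
    have hp := sq_pos t
    rcases le_total (s : ℝ) (1 - s) with h1 | h1
    · left
      rw [min_eq_left h1] at h
      refine Set.projIcc_of_le_left zero_le_one ?_
      have h2 : ((s : ℝ) - 1 / 2) / (1 - (t : ℝ) / 2) ≤ -(1 / 2) := by
        rw [div_le_iff₀ hp]
        linarith
      change 1 / 2 + ((s : ℝ) - 1 / 2) / (1 - (t : ℝ) / 2) ≤ 0
      linarith
    · right
      rw [min_eq_right h1] at h
      refine Set.projIcc_of_right_le zero_le_one ?_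
      have h2 : (1 / 2 : ℝ) ≤ ((s : ℝ) - 1 / 2) / (1 - (t : ℝ) / 2) := by
        rw [le_div_iff₀ hp]
        linarith
      change 1 ≤ 1 / 2 + ((s : ℝ) - 1 / 2) / (1 - (t : ℝ) / 2)
      linarith

/-! ### The circle -/

section circle

variable {C : Type} [Group C] [Finite C] {lam : C →* Circle}
  {X : Type} [TopologicalSpace X] [T2Space X] [LocallyCompactSpace X] [MulAction C X]
  [ContinuousConstSMul C X]

/-- equality of two points of `(S¹ × X) / C` -/
theorem orb_cir_eq (hl : Function.Injective lam) {s t : ℝ} (hs : 0 ≤ s) (hs1 : s ≤ 1) (ht : 0 ≤ t)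
    (ht1 : t ≤ 1) {x y : X} (h : (orb (cir lam s, x) : Orb C (EE lam Unit × X)) =
      orb (cir lam t, y)) : (s = t ∧ x = y) ∨ (s = 0 ∧ t = 1) ∨ (s = 1 ∧ t = 0) := by
  obtain ⟨g, hg⟩ := orb_eq_iff.mp h
  have h1 : g • cir lam s = cir lam t := congrArg Prod.fst hg
  have h2 : g • x = y := congrArg Prod.snd hg
  by_cases hst : |t - s| < 1
  · obtain ⟨h3, h4⟩ := eq_of_smul_cir hl h1 hst
    refine Or.inl ⟨h3, ?_⟩
    rw [← h2, h4, one_smul]
  · rw [not_lt, le_abs] at hst
    rcases hst with h3 | h3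
    · exact Or.inr (Or.inl ⟨by linarith, by linarith⟩)
    · exact Or.inr (Or.inr ⟨by linarith, by linarith⟩)

theorem orb_cir_one {g : C} (hg : lam g = ex (Nat.card C) 1) (x : X) :
    (orb (cir lam 1, x) : Orb C (EE lam Unit × X)) = orb (cir lam 0, g⁻¹ • x) := by
  refine orb_eq_iff.mpr ⟨g⁻¹, Prod.ext ?_ rfl⟩
  change g⁻¹ • cir lam 1 = cir lam 0
  rw [inv_smul_eq_iff, smul_cir hg, zero_add]

/-- the closed stratum -/
def cz (lam : C →* Circle) (x : X) : Orb C (EE lam Unit × X) := orb (cir lam 0, x)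

/-- the open stratum -/
def cu (lam : C →* Circle) (p : Set.Ioo (0 : ℝ) 1 × X) : Orb C (EE lam Unit × X) :=
  orb (cir lam p.1.1, p.2)

/-- the covering of the orbit space by the cylinder -/
def cq (lam : C →* Circle) (p : unitInterval × X) : Orb C (EE lam Unit × X) :=
  orb (cir lam (p.1 : ℝ), p.2)

theorem isClosedEmbedding_cz (hl : Function.Injective lam) :
    IsClosedEmbedding (cz (X := X) lam) := by
  refine IsClosedEmbedding.of_continuous_injective_isClosedMap ?_ ?_ ?_
  · exact continuous_orb.comp (continuous_const.prodMk continuous_id)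
  · intro x y h
    rcases orb_cir_eq hl le_rfl zero_le_one le_rfl zero_le_one h with h1 | h1 | h1
    · exact h1.2
    · exact absurd h1.2 zero_ne_one
    · exact absurd h1.1 zero_ne_one
  · have h1 : IsClosedEmbedding fun x : X => (cir lam 0, x) :=
      Function.LeftInverse.isClosedEmbedding (f := Prod.snd) (fun _ => rfl) continuous_snd
        (continuous_const.prodMk continuous_id)
    exact isProperMap_orb.isClosedMap.comp h1.isClosedMap

theorem isOpenEmbedding_cu (hl : Function.Injective lam) :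
    IsOpenEmbedding (cu (X := X) lam) :=
  isOpenEmbedding_orb_free (isOpenEmbedding_cir hl) (by
    intro g s t h
    refine (eq_of_smul_cir hl h ?_).2
    rw [abs_lt]
    constructor <;> linarith [s.2.1, s.2.2, t.2.1, t.2.2])

theorem isProperMap_cq : IsProperMap (cq (X := X) lam) := by
  have h1 : cq (X := X) lam = (orb : EE lam Unit × X → Orb C (EE lam Unit × X)) ∘
      Prod.map (fun s : unitInterval => cir lam (s : ℝ)) id := rfl
  rw [h1]
  refine isProperMap_orb.comp (IsProperMap.prodMap ?_ isProperMap_id)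
  exact ((continuous_cir lam).comp continuous_subtype_val).isProperMap

theorem cq_surjective (hl : Function.Injective lam) : Function.Surjective (cq (X := X) lam) := by
  intro y
  induction y using Orb.ind with
  | h w =>
    obtain ⟨z, x⟩ := w
    obtain ⟨s, rfl⟩ := cir_surjective z
    obtain ⟨g, hg⟩ := exists_gen hl
    refine ⟨(⟨Int.fract s, Int.fract_nonneg s, (Int.fract_lt_one s).le⟩, (g ^ ⌊s⌋)⁻¹ • x), ?_⟩
    refine orb_eq_iff.mpr ⟨g ^ ⌊s⌋, Prod.ext ?_ ?_⟩
    · change g ^ ⌊s⌋ • cir lam (Int.fract s) = cir lam s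
      rw [← cir_add_int _ hg, Int.fract_add_floor]
    · change g ^ ⌊s⌋ • (g ^ ⌊s⌋)⁻¹ • x = x
      rw [smul_inv_smul]

theorem mem_range_cz (hl : Function.Injective lam) {s : unitInterval} {x : X} :
    cq lam (s, x) ∈ Set.range (cz (X := X) lam) ↔ s = 0 ∨ s = 1 := by
  constructor
  · rintro ⟨y, hy⟩
    rcases orb_cir_eq hl le_rfl zero_le_one s.2.1 s.2.2 hy with h1 | h1 | h1
    · exact Or.inl (Subtype.ext h1.1.symm)
    · exact Or.inr (Subtype.ext h1.2)
    · exact Or.inl (Subtype.ext h1.2)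
  · rintro (rfl | rfl)
    · exact ⟨x, rfl⟩
    · obtain ⟨g, hg⟩ := exists_gen hl
      exact ⟨g⁻¹ • x, (orb_cir_one hg x).symm⟩

theorem isCompl_cz_cu (hl : Function.Injective lam) :
    IsCompl (Set.range (cz (X := X) lam)) (Set.range (cu (X := X) lam)) := by
  have h : (Set.range (cz (X := X) lam))ᶜ = Set.range (cu (X := X) lam) := by
    ext y
    obtain ⟨⟨s, x⟩, rfl⟩ := cq_surjective hl y
    rw [Set.mem_compl_iff, mem_range_cz hl, not_or]
    constructor
    · rintro ⟨h0, h1⟩
      refine ⟨(⟨s, lt_of_le_of_ne s.2.1 ?_, lt_of_le_of_ne s.2.2 ?_⟩, x), rfl⟩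
      · exact fun h => h0 (Subtype.ext h.symm)
      · exact fun h => h1 (Subtype.ext h)
    · rintro ⟨⟨t, y⟩, ht⟩
      have h2 := orb_cir_eq hl t.2.1.le t.2.2.le s.2.1 s.2.2 ht
      constructor
      · rintro rfl
        rcases h2 with h3 | h3 | h3
        · exact absurd h3.1 t.2.1.ne'
        · exact absurd h3.1 t.2.1.ne'
        · exact absurd h3.1 t.2.2.ne
      · rintro rfl
        rcases h2 with h3 | h3 | h3
        · exact absurd h3.1 t.2.2.ne
        · exact absurd h3.1 t.2.1.ne'
        · exact absurd h3.1 t.2.2.ne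
  rw [← h]
  exact isCompl_compl

theorem cofib_cz (hl : Function.Injective lam) :
    Cofib (ofClosed (X := LC.of X) (Y := LC.of (Orb C (EE lam Unit × X))) (cz lam)
      (isClosedEmbedding_cz hl)) := by
  refine cofib_of_quot (W := unitInterval) (X := LC.of X) (isClosedEmbedding_cz hl) (cq lam)
    isProperMap_cq (cq_surjective hl) sqR continuous_sqR sqU continuous_sqU ?_ ?_ ?_ ?_
  · intro s x t y a h
    rcases orb_cir_eq hl s.2.1 s.2.2 t.2.1 t.2.2 h with ⟨h1, h2⟩ | ⟨h1, h2⟩ | ⟨h1, h2⟩
    · have h3 : s = t := Subtype.ext h1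
      subst h3
      subst h2
      exact ⟨rfl, rfl⟩
    · have h3 : s = 0 := Subtype.ext h1
      have h4 : t = 1 := Subtype.ext h2
      subst h3
      subst h4
      rw [sqR_zero_left, sqR_one_left, sqU_zero_left, sqU_one_left]
      exact ⟨h, rfl⟩
    · have h3 : s = 1 := Subtype.ext h1
      have h4 : t = 0 := Subtype.ext h2
      subst h3
      subst h4
      rw [sqR_zero_left, sqR_one_left, sqU_zero_left, sqU_one_left]
      exact ⟨h, rfl⟩
  · exact fun s => ⟨sqR_zero_right s, sqU_zero_right s⟩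
  · intro s x a h
    rcases (mem_range_cz hl).mp h with rfl | rfl
    · rw [sqR_zero_left, sqU_zero_left]
      exact ⟨rfl, rfl⟩
    · rw [sqR_one_left, sqU_one_left]
      exact ⟨rfl, rfl⟩
  · intro s x a
    exact (sq_range s a).imp_right fun h => (mem_range_cz hl).mpr h

/-- **The circle.** -/
theorem circle_step (hl : Function.Injective lam) {P : LC → Prop} (hP : Cls P)
    (hX : P (LC.of X)) : P (LC.of (Orb C (EE lam Unit × X))) :=
  have : LocallyCompactSpace (Set.Ioo (0 : ℝ) 1) := isOpen_Ioo.locallyCompactSpace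
  hP.ext (A := LC.of X) (U := LC.of (Set.Ioo (0 : ℝ) 1 × X)) (cz lam) (isClosedEmbedding_cz hl)
    (cu lam) (isOpenEmbedding_cu hl) (isCompl_cz_cu hl) (cofib_cz hl) hX
    (hP.homeo (hP.line hX) (iooR.symm.prodCongr (Homeomorph.refl X)))

end circle

end Vale.Agent.P241.H402
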