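import Vale.Agent.P241.H402.Orb
import Vale.Agent.P241.H588.LensQ
import Mathlib.Analysis.Complex.Circle

/-!
# P241, block UB-G: spheres with an action through a character

`EE lam κ`: the unit sphere of `ℂ^κ` on which `g : C` acts by multiplication with `lam g`.
-/

open Topology Vale.Agent.P093.N2 Vale.Agent.P251.G Vale.Agent.P241.H588

noncomputable section

namespace Vale.Agent.P241.H402

/-- the unit sphere of `ℂ^κ` with the action of `C` through a character -/
abbrev EE {C : Type} [Group C] (lam : C →* Circle) (κ : Type) [Fintype κ] : Type := LS lam κ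

namespace EE

variable {C : Type} [Group C] {lam : C →* Circle} {κ : Type} [Fintype κ]

/-- constructor -/
def mk (lam : C →* Circle) (x : κ → ℂ) (h : nsq x = 1) : EE lam κ := ⟨x, h⟩

@[simp] theorem v_mk (x : κ → ℂ) (h : nsq x = 1) : (mk lam x h).v = x := rfl

theorem nsq_v (x : EE lam κ) : nsq x.v = 1 := LS.nsq_v x

theorem ext {x y : EE lam κ} (h : x.v = y.v) : x = y := LS.ext h

@[continuity, fun_prop]
theorem continuous_v : Continuous (LS.v : EE lam κ → κ → ℂ) := LS.continuous_v

theorem continuous_mk {Z : Type*} [TopologicalSpace Z] {f : Z → κ → ℂ} (hf : Continuous f)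
    (h : ∀ z, nsq (f z) = 1) : Continuous fun z => mk lam (f z) (h z) :=
  Continuous.subtype_mk hf h

theorem smul_v (g : C) (x : EE lam κ) : (g • x).v = (lam g : ℂ) • x.v := rfl

theorem ne_zero (x : EE lam κ) : x.v ≠ 0 := by
  intro h
  have := x.nsq_v
  rw [h] at this
  simp [nsq] at this

/-- the action is free if the character is faithful -/
theorem free (hl : Function.Injective lam) {g : C} {x : EE lam κ} (h : g • x = x) : g = 1 := by
  have h1 : (lam g : ℂ) • x.v = x.v := congrArg LS.v h
  have h2 : ((lam g : ℂ) - 1) • x.v = 0 := by rw [sub_smul, h1, one_smul, sub_self]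
  have h3 : (lam g : ℂ) - 1 = 0 := (smul_eq_zero.mp h2).resolve_right x.ne_zero
  have h4 : lam g = lam 1 := by
    rw [map_one]
    exact Circle.ext (sub_eq_zero.mp h3)
  exact hl h4

variable (lam) in
/-- change of the index type -/
def reindex {κ' : Type} [Fintype κ'] (f : κ ≃ κ') : EE lam κ ≃ₜ EE lam κ' where
  toFun x := mk lam (fun j => x.v (f.symm j))
    ((Equiv.sum_comp f.symm fun j => Complex.normSq (x.v j)).trans x.nsq_v)
  invFun x := mk lam (fun j => x.v (f j))
    ((Equiv.sum_comp f fun j => Complex.normSq (x.v j)).trans x.nsq_v)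
  left_inv x := ext (funext fun j => congrArg x.v (f.symm_apply_apply j))
  right_inv x := ext (funext fun j => congrArg x.v (f.apply_symm_apply j))
  continuous_toFun := continuous_mk (by fun_prop) _
  continuous_invFun := continuous_mk (by fun_prop) _

theorem reindex_smul {κ' : Type} [Fintype κ'] (f : κ ≃ κ') (g : C) (x : EE lam κ) :
    reindex lam f (g • x) = g • reindex lam f x := rfl

end EE

end Vale.Agent.P241.H402
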