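import Vale.Agent.P241.H402.Ray
import Vale.Agent.P241.H402.AcCls

/-!
# P241, block UB-G: the maps between `X#`, `X` and `X^C`

* `cmf`, `om` : the maps `[0, 1] → [0, ∞]` and `[0, 1] → ℝ⁺`;
* `cP X : X# ⟶ X^C ⊗ ℝ` : the collapse; `kap X : X^C ⊗ [0, ∞) ⟶ X#` and `io X : X ⟶ X#`: the
  inclusions.
-/

open CategoryTheory MonoidalCategory Filter Topology OnePoint Vale.Agent.P251.G
  Vale.Agent.P251.G.LC Vale.Agent.P093.N2 Vale.Agent.P241.H588 Vale.Agent.P241.H175
  Vale.Agent.P241.H486 Vale.Agent.P241.St Vale.Agent.P251.St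

set_option linter.unusedSectionVars false

noncomputable section

namespace Vale.Agent.P241.H402

/-! ### The interval -/

/-- the map `[0, 1] → [0, ∞]`, `0 ↦ 0`, `1 ↦ ∞` -/
def cmf (u : unitInterval) : OnePoint NNReal :=
  app coneMap' ((unitInterval.symm u : unitInterval) : OnePoint unitInterval)

theorem continuous_cmf : Continuous cmf :=
  (continuous_app coneMap').comp (OnePoint.continuous_coe.comp unitInterval.continuous_symm)

theorem cmf_zero : cmf 0 = ((0 : NNReal) : OnePoint NNReal) := by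
  unfold cmf
  rw [unitInterval.symm_zero]
  exact app_coneMap_one

theorem cmf_one : cmf 1 = ∞ := by
  unfold cmf
  rw [unitInterval.symm_one]
  exact app_coneMap_zero

/-- the map `[0, 1] → ℝ⁺` -/
def om (u : unitInterval) : OnePoint ℝ := app LC.openPart (cmf u)

theorem continuous_om : Continuous om := (continuous_app LC.openPart).comp continuous_cmf

theorem app_openPart_zero : app LC.openPart ((0 : NNReal) : OnePoint NNReal) = ∞ := by
  refine app_ofOpen_of_notMem (X := HH) (Y := RR) _ _ ?_
  rintro ⟨s, hs⟩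
  have h := congrArg NNReal.toReal hs
  exact absurd h (Real.exp_pos s).ne'

theorem om_zero : om 0 = ∞ := by
  unfold om
  rw [cmf_zero, app_openPart_zero]

theorem om_one : om 1 = ∞ := by
  unfold om
  rw [cmf_one, app_infty]

theorem exists_coneFun {v : unitInterval} (h : v ≠ 0) : ∃ s, coneFun s = v := by
  have h0 : 0 < (v : ℝ) := lt_of_le_of_ne v.2.1 fun h' => h (Subtype.ext h'.symm)
  refine ⟨⟨1 / (v : ℝ) - 1, ?_⟩, Subtype.ext ?_⟩
  · rw [sub_nonneg, le_div_iff₀ h0]
    linarith [v.2.2]
  · change 1 / (1 + (1 / (v : ℝ) - 1)) = v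
    rw [add_sub_cancel, one_div_one_div]

theorem exists_expH {s : NNReal} (h : s ≠ 0) : ∃ x, expH x = s := by
  have h0 : 0 < (s : ℝ) := lt_of_le_of_ne s.2 fun h' => h (NNReal.eq h'.symm)
  exact ⟨Real.log s, NNReal.eq (Real.exp_log h0)⟩

theorem om_cases (u : unitInterval) :
    (∃ x : ℝ, om u = x ∧ unitInterval.symm u = coneFun (expH x)) ∨
      (om u = ∞ ∧ (u = 0 ∨ u = 1)) := by
  by_cases h : unitInterval.symm u = 0
  · right
    have h1 : u = 1 := by
      rw [← unitInterval.symm_symm u, h, unitInterval.symm_zero]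
    exact ⟨h1 ▸ om_one, Or.inr h1⟩
  · obtain ⟨s, hs⟩ := exists_coneFun h
    have h1 : cmf u = (s : OnePoint NNReal) := by
      unfold cmf
      rw [← hs]
      exact app_ofOpen_coe (X := II) (Y := HH) _ _ _
    by_cases h0 : s = 0
    · right
      have h2 : u = 0 := by
        rw [← unitInterval.symm_symm u, ← hs, h0]
        have : coneFun 0 = 1 := by
          apply Subtype.ext
          change (1 : ℝ) / (1 + ((0 : NNReal) : ℝ)) = 1
          simp
        rw [this, unitInterval.symm_one]
      exact ⟨h2 ▸ om_zero, Or.inl h2⟩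
    · left
      obtain ⟨x, hx⟩ := exists_expH h0
      refine ⟨x, ?_, ?_⟩
      · unfold om
        rw [h1, ← hx]
        exact app_ofOpen_coe (X := HH) (Y := RR) _ _ _
      · rw [hx, hs]

theorem om_injective {u v : unitInterval} (h : om u = om v) (hu : om u ≠ ∞) : u = v := by
  rcases om_cases u with ⟨x, hx, hx'⟩ | ⟨h1, -⟩
  · rcases om_cases v with ⟨y, hy, hy'⟩ | ⟨h2, -⟩
    · have hxy : x = y := OnePoint.coe_injective (hx.symm.trans (h.trans hy))
      rw [← unitInterval.symm_symm u, ← unitInterval.symm_symm v, hx', hy', hxy]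
    · exact absurd (h.trans h2) hu
  · exact absurd h1 hu

theorem eq_zero_or_one_of_om {u : unitInterval} (h : om u = ∞) : u = 0 ∨ u = 1 := by
  rcases om_cases u with ⟨x, hx, -⟩ | ⟨-, h1⟩
  · exact absurd (hx.symm.trans h) (OnePoint.coe_ne_infty _)
  · exact h1

theorem om_surjective : Function.Surjective om := by
  intro x
  induction x using OnePoint.rec with
  | infty => exact ⟨0, om_zero⟩
  | coe x =>
    refine ⟨unitInterval.symm (coneFun (expH x)), ?_⟩
    unfold om cmf
    rw [unitInterval.symm_symm]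
    have h1 : app coneMap' ((coneFun (expH x) : unitInterval) : OnePoint unitInterval) =
        ((expH x : NNReal) : OnePoint NNReal) := app_ofOpen_coe (X := II) (Y := HH) _ _ _
    rw [h1]
    exact app_ofOpen_coe (X := HH) (Y := RR) _ _ _

/-! ### Maps between `X#`, `X`, `X^C` -/

section maps

variable {C : Type} [Group C] (X : GSpace C)

/-- the fixed points times the line, with trivial action -/
def ZG : GSpace C := GSpace.triv C ⟨(X.fix ⊤).carrier × ℝ⟩

/-- `X` times the line -/
def XR : GSpace C := X.prod (GSpace.triv C ⟨ℝ⟩)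

theorem smul_ZG (g : C) (z : (ZG X).und.Pt) : (ZG X).smul g z = z := by
  induction z using OnePoint.rec with
  | infty => rfl
  | coe z => rfl

/-- `X^C ⊗ ℝ ⟶ X ⊗ ℝ` -/
def fR : toLC (ZG X).und ⟶ toLC X.und ⊗ RR := fι X ⊤ ▷ RR

theorem injective_fR : Function.Injective (app (fR X)) :=
  injective_whiskerRight' (injective_fι X ⊤) RR

theorem app_fR (y : (X.fix ⊤).Pt) (s : OnePoint ℝ) :
    app (fR X) (LC.smash y s) = LC.smash (app (fι X ⊤) y) s :=
  app_whiskerRight_smash (fι X ⊤) RR y s

theorem mem_range_fR {x : X.und.Pt} {s : OnePoint ℝ} (h : s = ∞ ∨ ∀ g : C, X.smul g x = x) :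
    LC.smash x s ∈ Set.range (app (fR X)) :=
  mem_range_whiskerRight_smash (fι X ⊤) RR (h.imp id fun h =>
    (mem_range_fι X ⊤ x).mpr fun v _ => h v)

theorem cP_range (p : (sharp X).und.Pt) :
    app (mι X ≫ toLC X.und ◁ LC.openPart) p ∈ Set.range (app (fR X)) := by
  obtain ⟨x, t, h, h'⟩ := exists_rep p
  rw [app_comp, h, app_whiskerLeft_smash]
  refine mem_range_fR X (h'.imp (fun h0 => ?_) id)
  rw [h0, app_openPart_zero]

/-- the collapse `X# ⟶ X^C ⊗ ℝ` -/
def cP : toLC (sharp X).und ⟶ toLC (ZG X).und :=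
  factor (fR X) (injective_fR X) (mι X ≫ toLC X.und ◁ LC.openPart) (cP_range X)

variable {X}

theorem app_fR_cP {p : (sharp X).und.Pt} {x : X.und.Pt} {t : OnePoint NNReal}
    (h : app (mι X) p = LC.smash x t) :
    app (fR X) (app (cP X) p) = LC.smash x (app LC.openPart t) := by
  unfold cP
  rw [app_factor, app_comp, h, app_whiskerLeft_smash]

theorem kap_range (z : OnePoint ((X.fix ⊤).carrier × NNReal)) :
    app (fι X ⊤ ▷ HH) z ∈ Set.range (app (mι X)) := by
  obtain ⟨y, t, rfl⟩ := smash_coe_surjective (X := (X.fix ⊤).carrier) (Y := NNReal) z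
  have h : app (fι X ⊤ ▷ HH) (LC.smash y (t : OnePoint NNReal)) =
    LC.smash (app (fι X ⊤) y) (t : OnePoint NNReal) :=
    app_whiskerRight_smash (fι X ⊤) HH y _
  rw [h, mem_range_mι]
  exact Or.inr fun g => smul_fι X ⊤ y (Subgroup.mem_top g)

variable (X) in
/-- the inclusion `X^C ⊗ [0, ∞) ⟶ X#` -/
def kap : toLC (X.fix ⊤) ⊗ HH ⟶ toLC (sharp X).und :=
  factor (mι X) (injective_mι X) (fι X ⊤ ▷ HH) kap_range

theorem app_mι_kap (y : (X.fix ⊤).Pt) (t : OnePoint NNReal) :
    app (mι X) (app (kap X) (LC.smash y t)) = LC.smash (app (fι X ⊤) y) t := by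
  unfold kap
  rw [app_factor]
  exact app_whiskerRight_smash (fι X ⊤) HH y t

variable (X) in
/-- the inclusion `X ⟶ X#` -/
def io : toLC X.und ⟶ toLC (sharp X).und :=
  factor (mι X) (injective_mι X) ((ρ_ (toLC X.und)).inv ≫ toLC X.und ◁ point (X := HH) (0 : NNReal))
    (fun x => by
      have h : app ((ρ_ (toLC X.und)).inv ≫ toLC X.und ◁ point (X := HH) (0 : NNReal)) x =
          LC.smash x ((0 : NNReal) : OnePoint NNReal) := by
        induction x using OnePoint.rec with
        | infty => rw [app_infty, smash_infty_left]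
        | coe x => rfl
      rw [h, mem_range_mι]
      exact Or.inl rfl)

theorem app_mι_io (x : X.und.Pt) :
    app (mι X) (app (io X) x) = LC.smash x ((0 : NNReal) : OnePoint NNReal) := by
  unfold io
  rw [app_factor]
  induction x using OnePoint.rec with
  | infty => rw [app_infty, smash_infty_left]
  | coe x => rfl

theorem cP_kap (y : (X.fix ⊤).Pt) (t : OnePoint NNReal) :
    app (cP X) (app (kap X) (LC.smash y t)) = LC.smash y (app LC.openPart t) := by
  apply injective_fR X
  rw [app_fR_cP (app_mι_kap y t), app_fR]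

theorem cP_io (x : X.und.Pt) : app (cP X) (app (io X) x) = ∞ := by
  apply injective_fR X
  rw [app_fR_cP (app_mι_io x), app_openPart_zero, smash_infty_right, app_infty]

theorem io_fι (y : (X.fix ⊤).Pt) :
    app (io X) (app (fι X ⊤) y) = app (kap X) (LC.smash y ((0 : NNReal) : OnePoint NNReal)) := by
  apply injective_mι X
  rw [app_mι_io, app_mι_kap]

theorem smul_kap (g : C) (z : OnePoint ((X.fix ⊤).carrier × NNReal)) :
    (sharp X).smul g (app (kap X) z) = app (kap X) z := by
  obtain ⟨y, t, rfl⟩ := smash_coe_surjective (X := (X.fix ⊤).carrier) (Y := NNReal) z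
  apply injective_mι X
  rw [smul_rep (app_mι_kap y t), app_mι_kap, smul_fι X ⊤ y (Subgroup.mem_top g)]

theorem smul_io (g : C) (x : X.und.Pt) :
    (sharp X).smul g (app (io X) x) = app (io X) (X.smul g x) := by
  apply injective_mι X
  rw [smul_rep (app_mι_io x), app_mι_io]

theorem eqv_cP : Eqv (X := sharp X) (Y := ZG X) (cP X) := by
  intro g p
  rw [smul_ZG]
  apply injective_fR X
  obtain ⟨x, t, h, h'⟩ := exists_rep p
  rw [app_fR_cP (smul_rep (g := g) h), app_fR_cP h]
  rcases h' with h0 | h0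
  · rw [h0, app_openPart_zero, smash_infty_right, smash_infty_right]
  · rw [h0]

end maps

end Vale.Agent.P241.H402
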