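import Vale.Agent.P241.H402.Ext

/-!
# P241, block UB-G: the zero section factors through the Borel construction of `X`

`exists_factor_zero` : let `E` be a compact `C`-space with quotient `B`, `tau : E × ℂ_mu^d → TT` a
proper invariant map with `tau (e, 0) = z₀ (q e)`. If `x ↦ (0, x)`, `X# → ℂ_mu^d × X#` is
`C`-null-homotopic then `z₀ × (X^C × ℝ)` is homotopic to a map which factors through the orbit space
`(E × X × ℝ) / C`.
-/

open CategoryTheory MonoidalCategory Filter Topology OnePoint Vale.Agent.P251.G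
  Vale.Agent.P251.G.LC Vale.Agent.P093.N2 Vale.Agent.P241.H588 Vale.Agent.P241.H175
  Vale.Agent.P241.H486 Vale.Agent.P241.St Vale.Agent.P251.St

set_option linter.unusedSectionVars false

noncomputable section

namespace Vale.Agent.P241.H402

/-! ### The null-homotopy, composed with the collapse -/

section htpy

variable {C : Type} [Group C] {mu : C →* Circle} {d : ℕ} {X : GSpace C}

variable (mu d X) in
/-- the target -/
def TG : GSpace C := (GV mu d).prod (ZG X)

/-- a null-homotopy, composed with the collapse -/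
structure NH (mu : C →* Circle) (d : ℕ) (X : GSpace C) where
  /-- the homotopy -/
  H : unitInterval × OnePoint (sharp X).carrier → OnePoint (TG mu d X).carrier
  cont : Continuous H
  smul : ∀ (g : C) u p, H (u, (sharp X).smul g p) = (TG mu d X).smul g (H (u, p))
  infty : ∀ u, H (u, ∞) = ∞
  zero : ∀ p, H (0, p) = LC.smash (gv0 mu d : OnePoint (GV mu d).carrier) (app (cP X) p)
  one : ∀ p, H (1, p) = ∞

theorem exists_NH (h : NN (GV mu d) (gv0 mu d) (sharp X)) : Nonempty (NH mu d X) := by
  obtain ⟨H, ⟨⟨Hc, Hi⟩, HG⟩, H0, H1⟩ := h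
  refine ⟨{
    H := fun a => app (wl (GV mu d) (cP X)) (H a.1 a.2)
    cont := (continuous_app _).comp Hc
    smul := fun g u p => ?_
    infty := fun u => ?_
    zero := fun p => ?_
    one := fun p => ?_ }⟩
  · change app (wl (GV mu d) (cP X)) (H u ((sharp X).smul g p)) = _
    rw [HG]
    exact eqv_wl eqv_cP g _
  · change app (wl (GV mu d) (cP X)) (H u ∞) = ∞
    rw [Hi, app_infty]
  · change app (wl (GV mu d) (cP X)) (H 0 p) = _
    rw [H0, app_inj, app_wl]
  · change app (wl (GV mu d) (cP X)) (H 1 p) = ∞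
    rw [H1, app_zero, app_infty]

variable (N : NH mu d X)

theorem NH.io_zero (x : X.und.Pt) : N.H (0, app (io X) x) = ∞ := by
  rw [N.zero, cP_io]
  exact smash_infty_right _

theorem NH.io_infty (u : unitInterval) : N.H (u, app (io X) ∞) = ∞ := by
  rw [app_infty, N.infty]

theorem NH.io_of_om {u : unitInterval} (h : om u = ∞) (x : X.und.Pt) :
    N.H (u, app (io X) x) = ∞ := by
  rcases eq_zero_or_one_of_om h with rfl | rfl
  · exact N.io_zero x
  · exact N.one _

/-! the rotating ray -/

/-- first coordinate of the end point -/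
def rayA (t : unitInterval) : unitInterval :=
  Set.projIcc 0 1 zero_le_one (2 - 2 * (t : ℝ))

/-- second coordinate of the end point -/
def rayB (t : unitInterval) : unitInterval :=
  Set.projIcc 0 1 zero_le_one (2 * (t : ℝ))

theorem continuous_rayA : Continuous rayA := continuous_projIcc.comp (by fun_prop)

theorem continuous_rayB : Continuous rayB := continuous_projIcc.comp (by fun_prop)

theorem rayA_zero : rayA 0 = 1 := Set.projIcc_of_right_le zero_le_one (by
  rw [Set.Icc.coe_zero]; norm_num)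

theorem rayA_one : rayA 1 = 0 := Set.projIcc_of_le_left zero_le_one (by
  rw [Set.Icc.coe_one]; norm_num)

theorem rayB_zero : rayB 0 = 0 := Set.projIcc_of_le_left zero_le_one (by
  rw [Set.Icc.coe_zero]; norm_num)

theorem rayB_one : rayB 1 = 1 := Set.projIcc_of_right_le zero_le_one (by
  rw [Set.Icc.coe_one]; norm_num)

theorem ray_one (t : unitInterval) : rayA t = 1 ∨ rayB t = 1 := by
  rcases le_total (t : ℝ) (1 / 2) with h | h
  · exact Or.inl (Set.projIcc_of_right_le zero_le_one (by linarith))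
  · exact Or.inr (Set.projIcc_of_right_le zero_le_one (by linarith))

/-- the homotopy on the fixed points -/
def NH.W (p : (unitInterval × (X.fix ⊤).Pt) × unitInterval) : OnePoint (TG mu d X).carrier :=
  N.H (p.1.1 * rayB p.2, app (kap X) (LC.smash p.1.2 (cmf (p.1.1 * rayA p.2))))

theorem NH.continuous_W : Continuous N.W := by
  refine N.cont.comp (Continuous.prodMk ?_ ((continuous_app (kap X)).comp
    (continuous_smash.comp (Continuous.prodMk ?_ (continuous_cmf.comp ?_)))))
  · exact (continuous_fst.comp continuous_fst).mul (continuous_rayB.comp continuous_snd)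
  · exact continuous_snd.comp continuous_fst
  · exact (continuous_fst.comp continuous_fst).mul (continuous_rayA.comp continuous_snd)

theorem NH.W_infty (u t : unitInterval) : N.W ((u, ∞), t) = ∞ := by
  change N.H (_, app (kap X) (LC.smash ∞ _)) = ∞
  rw [smash_infty_left, app_infty, N.infty]

theorem NH.W_of_om {u : unitInterval} (h : om u = ∞) (y : (X.fix ⊤).Pt) (t : unitInterval) :
    N.W ((u, y), t) = ∞ := by
  change N.H (u * rayB t, app (kap X) (LC.smash y (cmf (u * rayA t)))) = ∞
  rcases eq_zero_or_one_of_om h with rfl | rfl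
  · rw [zero_mul, zero_mul, cmf_zero, N.zero, cP_kap, app_openPart_zero, smash_infty_right]
    exact smash_infty_right _
  · rw [one_mul, one_mul]
    rcases ray_one t with h1 | h1
    · rw [h1, cmf_one, smash_infty_right, app_infty, N.infty]
    · rw [h1, N.one]

theorem NH.smul_W (g : C) (p) : (TG mu d X).smul g (N.W p) = N.W p := by
  unfold NH.W
  rw [← N.smul, smul_kap]

theorem NH.W_zero (u : unitInterval) (y : (X.fix ⊤).Pt) :
    N.W ((u, y), 0) = LC.smash (gv0 mu d : OnePoint (GV mu d).carrier)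
      (LC.smash y (om u) : OnePoint ((X.fix ⊤).carrier × ℝ)) := by
  change N.H (u * rayB 0, app (kap X) (LC.smash y (cmf (u * rayA 0)))) = _
  rw [rayB_zero, rayA_zero, mul_zero, mul_one, N.zero, cP_kap]
  rfl

theorem NH.W_one (u : unitInterval) (y : (X.fix ⊤).Pt) :
    N.W ((u, y), 1) = N.H (u, app (io X) (app (fι X ⊤) y)) := by
  change N.H (u * rayB 1, app (kap X) (LC.smash y (cmf (u * rayA 1)))) = _
  rw [rayB_one, rayA_one, mul_zero, mul_one, cmf_zero, io_fι]

end htpy

/-! ### Descent to the orbit spaces -/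

section main

variable {C : Type} [Group C] [Finite C] {mu : C →* Circle} {d : ℕ} {X : GSpace C}
  {E B : Type} [TopologicalSpace E] [T2Space E] [CompactSpace E] [MulAction C E]
  [ContinuousConstSMul C E] [TopologicalSpace B] [T2Space B] [CompactSpace B] {q : E → B}
  {TT : LC} {tau : E × (GV mu d).carrier → TT} (ht : IsProperMap tau)

/-- the induced morphism -/
def tauH : LC.of E ⊗ toLC (GV mu d).und ⟶ TT :=
  ofIsProper (X := LC.of (E × (GV mu d).carrier)) tau ht

/-- the induced map with parameters -/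
def TE (Z : LC) : LC.of E ⊗ (toLC (GV mu d).und ⊗ Z) ⟶ TT ⊗ Z :=
  (α_ (LC.of E) (toLC (GV mu d).und) Z).inv ≫ tauH ht ▷ Z

theorem app_TE (Z : LC) (e : OnePoint E) (v : (GV mu d).und.Pt) (z : OnePoint Z) :
    app (TE ht Z) (LC.smash e (LC.smash v z)) = LC.smash (app (tauH ht) (LC.smash e v)) z := by
  unfold TE
  rw [app_comp]
  refine (congrArg _ (app_associator_inv_smash (LC.of E) (toLC (GV mu d).und) Z e v z)).trans ?_
  exact app_whiskerRight_smash (tauH ht) Z _ z

/-- the map `E × (ℂ^d × (X^C × ℝ))⁺ → (TT × (X^C × ℝ))⁺` -/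
def FE (p : E × OnePoint (TG mu d X).carrier) : OnePoint (TT × ((X.fix ⊤).carrier × ℝ)) :=
  app (TE ht (toLC (ZG X).und)) (LC.smash (p.1 : OnePoint E) p.2)

theorem continuous_FE : Continuous (FE (X := X) ht) :=
  (continuous_app (TE ht (toLC (ZG X).und))).comp (continuous_smash.comp
    ((OnePoint.continuous_coe.comp continuous_fst).prodMk continuous_snd))

theorem FE_infty (e : E) : FE (X := X) ht (e, ∞) = ∞ :=
  (congrArg (app (TE ht (toLC (ZG X).und))) (smash_infty_right _)).trans (app_infty _)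

theorem FE_smul (hinv : ∀ (g : C) (e : E) v, tau (g • e, g • v) = tau (e, v)) (g : C) (e : E)
    (w : OnePoint (TG mu d X).carrier) :
    FE (X := X) ht (g • e, (TG mu d X).smul g w) = FE ht (e, w) := by
  obtain ⟨v, z, rfl⟩ := smash_surjective (X := (GV mu d).carrier) (Y := (ZG X).carrier) w
  have h1 : (TG mu d X).smul g (LC.smash v z) = LC.smash ((GV mu d).smul g v) z :=
    H486.smul_smash (GV mu d) ⟨(X.fix ⊤).carrier × ℝ⟩ g v z
  unfold FE
  rw [h1]
  refine (app_TE ht (toLC (ZG X).und) _ _ _).trans ?_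
  refine Eq.trans ?_ (app_TE ht (toLC (ZG X).und) _ _ _).symm
  congr 1
  induction v using OnePoint.rec with
  | infty => rfl
  | coe v => exact congrArg (OnePoint.some (X := TT.carrier)) (hinv g e v)

variable (X E) in
/-- the orbit space `(E × X × ℝ) / C` -/
def OX : LC := LC.of (Orb C (E × (XR X).carrier))

variable (X E) in
/-- the projection to the orbit space -/
def piX : LC.of E ⊗ (toLC X.und ⊗ RR) ⟶ OX X E :=
  ofIsProper (X := LC.of (E × (XR X).carrier)) (Y := OX X E) orb isProperMap_orb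

theorem app_piX_eq_infty {z : OnePoint (E × (X.carrier × ℝ))} : app (piX X E) z = ∞ ↔ z = ∞ := by
  induction z using OnePoint.rec with
  | infty => exact ⟨fun _ => rfl, fun _ => app_infty (piX X E)⟩
  | coe z => exact ⟨fun h => absurd h (OnePoint.coe_ne_infty _),
      fun h => absurd h (OnePoint.coe_ne_infty _)⟩

/-- the cover of the orbit space -/
def cR (p : (E × unitInterval) × X.und.Pt) : OnePoint (OX X E) :=
  app (piX X E) (LC.smash (p.1.1 : OnePoint E) (LC.smash p.2 (om p.1.2)))

theorem continuous_cR : Continuous (cR (X := X) (E := E)) := by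
  refine (continuous_app (piX X E)).comp (continuous_smash.comp (Continuous.prodMk ?_
    (continuous_smash.comp (Continuous.prodMk ?_ ?_))))
  · exact OnePoint.continuous_coe.comp (continuous_fst.comp continuous_fst)
  · exact continuous_snd
  · exact continuous_om.comp (continuous_snd.comp continuous_fst)

theorem cR_eq_infty {e : E} {u : unitInterval} {x : X.und.Pt} :
    cR ((e, u), x) = ∞ ↔ x = ∞ ∨ om u = ∞ := by
  unfold cR
  rw [app_piX_eq_infty, smash_eq_infty, smash_eq_infty]
  exact or_iff_right (OnePoint.coe_ne_infty _)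

theorem surjective_cR [Nonempty E] : Function.Surjective (cR (X := X) (E := E)) := by
  intro z
  induction z using OnePoint.rec with
  | infty => exact ⟨((Classical.arbitrary E, 0), ∞), cR_eq_infty.mpr (Or.inl rfl)⟩
  | coe z =>
    obtain ⟨⟨e, x, s⟩, rfl⟩ := orb_surjective z
    obtain ⟨u, hu⟩ := om_surjective (OnePoint.some (X := ℝ) s)
    refine ⟨((e, u), (x : OnePoint X.carrier)), ?_⟩
    change app (piX X E) (LC.smash (e : OnePoint E) (LC.smash (x : OnePoint X.carrier) (om u))) = _
    rw [hu]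
    rfl

variable (X) in
/-- a point of `X × ℝ` -/
def xr (x : X.carrier) (s : ℝ) : (XR X).carrier := (x, s)

theorem cR_eq {e e' : E} {u u' : unitInterval} {x x' : X.und.Pt}
    (h : cR ((e, u), x) = cR ((e', u'), x')) (h0 : cR ((e, u), x) ≠ ∞) :
    u = u' ∧ ∃ g : C, e' = g • e ∧ x' = X.smul g x := by
  have h0' : cR ((e', u'), x') ≠ ∞ := h ▸ h0
  rw [Ne, cR_eq_infty, not_or] at h0 h0'
  obtain ⟨x, rfl⟩ := OnePoint.ne_infty_iff_exists.mp h0.1
  obtain ⟨x', rfl⟩ := OnePoint.ne_infty_iff_exists.mp h0'.1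
  obtain ⟨s, hs⟩ := OnePoint.ne_infty_iff_exists.mp h0.2
  obtain ⟨s', hs'⟩ := OnePoint.ne_infty_iff_exists.mp h0'.2
  have h1 : (orb (e, xr X x s) : Orb C (E × (XR X).carrier)) = orb (e', xr X x' s') := by
    unfold cR at h
    change app (piX X E) (LC.smash (e : OnePoint E) (LC.smash (x : OnePoint X.carrier) (om u))) =
      app (piX X E) (LC.smash (e' : OnePoint E) (LC.smash (x' : OnePoint X.carrier) (om u'))) at h
    rw [← hs, ← hs'] at h
    exact OnePoint.coe_injective h
  obtain ⟨g, hg⟩ := orb_eq_iff.mp h1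
  have h2 : g • e = e' := congrArg Prod.fst hg
  have h3 : g • x = x' := congrArg (fun p : E × (XR X).carrier => p.2.1) hg
  have h4 : s = s' := congrArg (fun p : E × (XR X).carrier => p.2.2) hg
  refine ⟨om_injective ?_ h0.2, g, h2.symm, ?_⟩
  · rw [← hs, ← hs', h4]
  · rw [← h3]
    rfl

/-- the values of the map `(E × X × ℝ) / C → TT × X^C × ℝ` on the cover -/
def FR (N : NH mu d X) (p : (E × unitInterval) × X.und.Pt) :
    OnePoint (TT × ((X.fix ⊤).carrier × ℝ)) :=
  FE ht (p.1.1, N.H (p.1.2, app (io X) p.2))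

theorem continuous_FR (N : NH mu d X) : Continuous (FR (E := E) ht N) := by
  refine (continuous_FE ht).comp (Continuous.prodMk (continuous_fst.comp continuous_fst)
    (N.cont.comp (Continuous.prodMk (continuous_snd.comp continuous_fst)
      ((continuous_app (io X)).comp continuous_snd))))

theorem FR_infty (N : NH mu d X) {p : (E × unitInterval) × X.und.Pt} (h : cR p = ∞) :
    FR ht N p = ∞ := by
  obtain ⟨⟨e, u⟩, x⟩ := p
  unfold FR
  rcases cR_eq_infty.mp h with h1 | h1
  · change FE ht (e, N.H (u, app (io X) x)) = ∞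
    rw [h1, N.io_infty, FE_infty]
  · change FE ht (e, N.H (u, app (io X) x)) = ∞
    rw [N.io_of_om h1, FE_infty]

theorem FR_compat (hinv : ∀ (g : C) (e : E) v, tau (g • e, g • v) = tau (e, v)) (N : NH mu d X)
    {p p' : (E × unitInterval) × X.und.Pt} (h : cR p = cR p') : FR ht N p = FR ht N p' := by
  by_cases h0 : cR p = ∞
  · rw [FR_infty ht N h0, FR_infty ht N (h ▸ h0)]
  · obtain ⟨⟨e, u⟩, x⟩ := p
    obtain ⟨⟨e', u'⟩, x'⟩ := p'
    obtain ⟨h1, g, h2, h3⟩ := cR_eq h h0
    change FE ht (e, N.H (u, app (io X) x)) = FE ht (e', N.H (u', app (io X) x'))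
    rw [← h1, h2, h3, ← smul_io, N.smul, FE_smul ht hinv]

/-- the map `(E × X × ℝ) / C → TT × X^C × ℝ` -/
def RR' [Nonempty E] (hinv : ∀ (g : C) (e : E) v, tau (g • e, g • v) = tau (e, v))
    (N : NH mu d X) : OX X E ⟶ TT ⊗ toLC (ZG X).und :=
  coverDesc (Y := OX X E) (Z := TT ⊗ toLC (ZG X).und) (cR (X := X) (E := E)) continuous_cR
    surjective_cR (FR ht N) (continuous_FR ht N) (fun _ _ h => FR_compat ht hinv N h)
    (fun _ h => FR_infty ht N h)

theorem app_RR' [Nonempty E] (hinv : ∀ (g : C) (e : E) v, tau (g • e, g • v) = tau (e, v))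
    (N : NH mu d X) (p : (E × unitInterval) × X.und.Pt) :
    app (RR' ht hinv N) (cR p) = FR ht N p :=
  app_coverDesc (Y := OX X E) (Z := TT ⊗ toLC (ZG X).und) _ _ _ _ _ _ _ p

/-! the inclusion of `B × X^C × ℝ` -/

/-- the cover of `B × X^C × ℝ` -/
def cJ (q : E → B) (p : E × (ZG X).und.Pt) : OnePoint (B × (ZG X).carrier) :=
  LC.smash (q p.1 : OnePoint B) p.2

theorem continuous_cJ (hq : Continuous q) : Continuous (cJ (X := X) q) :=
  continuous_smash.comp ((OnePoint.continuous_coe.comp (hq.comp continuous_fst)).prodMk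
    continuous_snd)

theorem surjective_cJ [Nonempty E] (hq : Function.Surjective q) :
    Function.Surjective (cJ (X := X) q) := by
  intro z
  induction z using OnePoint.rec with
  | infty => exact ⟨(Classical.arbitrary E, ∞), smash_infty_right _⟩
  | coe z =>
    obtain ⟨e, he⟩ := hq z.1
    refine ⟨(e, (z.2 : OnePoint (ZG X).carrier)), ?_⟩
    unfold cJ
    rw [he]
    rfl

/-- the values on the cover -/
def FJ (p : E × (ZG X).und.Pt) : OnePoint (OX X E) :=
  app (piX X E) (LC.smash (p.1 : OnePoint E) (app (fR X) p.2))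

theorem continuous_FJ : Continuous (FJ (X := X) (E := E)) :=
  (continuous_app (piX X E)).comp (continuous_smash.comp
    ((OnePoint.continuous_coe.comp continuous_fst).prodMk
      ((continuous_app (fR X)).comp continuous_snd)))

theorem cJ_eq_infty {p : E × (ZG X).und.Pt} : cJ (X := X) q p = ∞ ↔ p.2 = ∞ := by
  unfold cJ
  rw [smash_eq_infty]
  exact or_iff_right (OnePoint.coe_ne_infty _)

theorem FJ_infty {p : E × (ZG X).und.Pt} (h : cJ (X := X) q p = ∞) : FJ p = ∞ := by
  unfold FJ
  rw [cJ_eq_infty.mp h, app_infty, smash_infty_right]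
  exact app_infty (piX X E)

theorem FJ_compat (hq : EUL.IsQuo C q) {p p' : E × (ZG X).und.Pt}
    (h : cJ (X := X) q p = cJ q p') : FJ (X := X) p = FJ p' := by
  obtain ⟨e, z⟩ := p
  obtain ⟨e', z'⟩ := p'
  obtain ⟨h1, h2⟩ := smash_left_coe_eq_iff.mp h
  change z = z' at h1
  change z = ∞ ∨ q e = q e' at h2
  subst h1
  rcases h2 with rfl | h2
  · rw [FJ_infty (q := q) (cJ_eq_infty.mpr rfl), FJ_infty (q := q) (cJ_eq_infty.mpr rfl)]
  · obtain ⟨g, hg⟩ := (hq.orb e e').mp h2
    subst hg
    induction z using OnePoint.rec with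
    | infty => rw [FJ_infty (q := q) (cJ_eq_infty.mpr rfl),
        FJ_infty (q := q) (cJ_eq_infty.mpr rfl)]
    | coe z =>
      obtain ⟨⟨y, hy⟩, s⟩ := z
      have h3 : (orb (e, xr X y s) : Orb C (E × (XR X).carrier)) = orb (g • e, xr X y s) := by
        refine orb_eq_iff.mpr ⟨g, Prod.ext rfl (Prod.ext ?_ rfl)⟩
        exact hy ⟨g, Subgroup.mem_top g⟩
      exact congrArg (OnePoint.some (X := Orb C (E × (XR X).carrier))) h3

/-- the inclusion `B × X^C × ℝ → (E × X × ℝ) / C` -/
def JJ [Nonempty E] (hq : EUL.IsQuo C q) : LC.of B ⊗ toLC (ZG X).und ⟶ OX X E :=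
  coverDesc (Y := LC.of B ⊗ toLC (ZG X).und) (Z := OX X E) (cJ (X := X) q)
    (continuous_cJ hq.quot.continuous) (surjective_cJ hq.surj) FJ continuous_FJ
    (fun _ _ h => FJ_compat hq h) (fun _ h => FJ_infty h)

theorem app_JJ [Nonempty E] (hq : EUL.IsQuo C q) (p : E × (ZG X).und.Pt) :
    app (JJ (X := X) hq) (cJ q p) = FJ p :=
  app_coverDesc (Y := LC.of B ⊗ toLC (ZG X).und) (Z := OX X E) _ _ _ _ _ _ _ p

/-! the homotopy -/

/-- the finer cover of `B × X^C × ℝ` -/
def cW (q : E → B) (p : (E × unitInterval) × (X.fix ⊤).Pt) : OnePoint (B × (ZG X).carrier) :=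
  cJ q (p.1.1, (LC.smash p.2 (om p.1.2) : OnePoint ((X.fix ⊤).carrier × ℝ)))

theorem continuous_cW (hq : Continuous q) : Continuous (cW (X := X) q) := by
  refine (continuous_cJ hq).comp (Continuous.prodMk (continuous_fst.comp continuous_fst) ?_)
  exact continuous_smash.comp (continuous_snd.prodMk
    (continuous_om.comp (continuous_snd.comp continuous_fst)))

theorem surjective_cW [Nonempty E] (hq : Function.Surjective q) :
    Function.Surjective (cW (X := X) q) := by
  intro z
  obtain ⟨⟨e, z⟩, rfl⟩ := surjective_cJ (X := X) hq z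
  obtain ⟨y, s, rfl⟩ := smash_surjective (X := (X.fix ⊤).carrier) (Y := ℝ) z
  obtain ⟨u, rfl⟩ := om_surjective s
  exact ⟨((e, u), y), rfl⟩

theorem cW_eq_infty {e : E} {u : unitInterval} {y : (X.fix ⊤).Pt} :
    cW (X := X) q ((e, u), y) = ∞ ↔ y = ∞ ∨ om u = ∞ := by
  unfold cW
  rw [cJ_eq_infty]
  exact smash_eq_infty

/-- the homotopy on the cover -/
def FW (N : NH mu d X) (p : ((E × unitInterval) × (X.fix ⊤).Pt) × unitInterval) :
    OnePoint (TT × ((X.fix ⊤).carrier × ℝ)) :=
  FE ht (p.1.1.1, N.W ((p.1.1.2, p.1.2), p.2))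

theorem continuous_FW (N : NH mu d X) : Continuous (FW (E := E) ht N) := by
  refine (continuous_FE ht).comp (Continuous.prodMk
    (continuous_fst.comp (continuous_fst.comp continuous_fst)) (N.continuous_W.comp ?_))
  exact Continuous.prodMk (Continuous.prodMk
    (continuous_snd.comp (continuous_fst.comp continuous_fst))
    (continuous_snd.comp continuous_fst)) continuous_snd

theorem FW_infty (N : NH mu d X) {p : (E × unitInterval) × (X.fix ⊤).Pt} (t : unitInterval)
    (h : cW (X := X) q p = ∞) : FW ht N (p, t) = ∞ := by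
  obtain ⟨⟨e, u⟩, y⟩ := p
  change FE ht (e, N.W ((u, y), t)) = ∞
  rcases cW_eq_infty.mp h with h1 | h1
  · rw [h1, N.W_infty, FE_infty]
  · rw [N.W_of_om h1, FE_infty]

theorem FW_compat (hq : EUL.IsQuo C q)
    (hinv : ∀ (g : C) (e : E) v, tau (g • e, g • v) = tau (e, v)) (N : NH mu d X)
    {p p' : (E × unitInterval) × (X.fix ⊤).Pt} (t : unitInterval)
    (h : cW (X := X) q p = cW q p') : FW ht N (p, t) = FW ht N (p', t) := by
  by_cases h0 : cW (X := X) q p = ∞
  · rw [FW_infty ht N t h0, FW_infty ht N t (h ▸ h0)]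
  · have h0' : cW (X := X) q p' ≠ ∞ := h ▸ h0
    obtain ⟨⟨e, u⟩, y⟩ := p
    obtain ⟨⟨e', u'⟩, y'⟩ := p'
    rw [cW_eq_infty, not_or] at h0
    rw [Ne, cW_eq_infty, not_or] at h0'
    obtain ⟨h1, h2⟩ := smash_left_coe_eq_iff.mp h
    obtain ⟨y, rfl⟩ := OnePoint.ne_infty_iff_exists.mp h0.1
    obtain ⟨y', rfl⟩ := OnePoint.ne_infty_iff_exists.mp h0'.1
    obtain ⟨s, hs⟩ := OnePoint.ne_infty_iff_exists.mp h0.2
    obtain ⟨s', hs'⟩ := OnePoint.ne_infty_iff_exists.mp h0'.2
    change LC.smash (y : OnePoint (X.fix ⊤).carrier) (om u) =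
      LC.smash (y' : OnePoint (X.fix ⊤).carrier) (om u') at h1
    have h3 : q e = q e' := by
      refine h2.resolve_left fun h4 => ?_
      change LC.smash (y : OnePoint (X.fix ⊤).carrier) (om u) = ∞ at h4
      rcases smash_eq_infty.mp h4 with h5 | h5
      · exact h0.1 h5
      · exact h0.2 h5
    have h4 : ((y, s) : (X.fix ⊤).carrier × ℝ) = (y', s') := by
      rw [← hs, ← hs'] at h1
      exact OnePoint.coe_injective h1
    have h5 : y = y' := congrArg Prod.fst h4
    have h7 : s = s' := congrArg Prod.snd h4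
    have h6 : u = u' := om_injective (by rw [← hs, ← hs', h7]) h0.2
    obtain ⟨g, hg⟩ := (hq.orb e e').mp h3
    subst hg
    subst h5
    subst h6
    change FE ht (e, N.W ((u, _), t)) = FE ht (g • e, N.W ((u, _), t))
    rw [← FE_smul ht hinv g e, N.smul_W]

include ht in
/-- **The zero section factors through the Borel construction of `X`.** -/
theorem exists_factor_zero [Nonempty E] (hN : NN (GV mu d) (gv0 mu d) (sharp X))
    (hq : EUL.IsQuo C q) (hinv : ∀ (g : C) (e : E) v, tau (g • e, g • v) = tau (e, v))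
    (z₀ : LC.of B ⟶ TT)
    (hz : ∀ e : E, app z₀ (q e : OnePoint B) = (tau (e, gv0 mu d) : OnePoint TT)) :
    ∃ (J : LC.of B ⊗ toLC (ZG X).und ⟶ OX X E) (R : OX X E ⟶ TT ⊗ toLC (ZG X).und),
      Homotopic (z₀ ▷ toLC (ZG X).und) (J ≫ R) := by
  obtain ⟨N⟩ := exists_NH hN
  refine ⟨JJ hq, RR' ht hinv N, ?_⟩
  refine homotopic_of_cover (Y := LC.of B ⊗ toLC (ZG X).und) (Z := TT ⊗ toLC (ZG X).und)
    (cW (X := X) q) (continuous_cW hq.quot.continuous) (surjective_cW hq.surj)
    (FW ht N) (continuous_FW ht N) (fun _ _ t h => FW_compat ht hq hinv N t h)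
    (fun _ t h => FW_infty ht N t h) ?_ ?_
  · rintro ⟨⟨e, u⟩, y⟩
    change FE ht (e, N.W ((u, y), 0)) = _
    rw [N.W_zero]
    unfold FE
    refine (app_TE ht (toLC (ZG X).und) (e : OnePoint E) (gv0 mu d : OnePoint (GV mu d).carrier)
      (LC.smash y (om u) : OnePoint ((X.fix ⊤).carrier × ℝ))).trans ?_
    refine Eq.trans ?_ (app_whiskerRight_smash z₀ (toLC (ZG X).und) (q e : OnePoint B)
      (LC.smash y (om u) : OnePoint ((X.fix ⊤).carrier × ℝ))).symm
    rw [hz]
    rfl
  · rintro ⟨⟨e, u⟩, y⟩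
    change FE ht (e, N.W ((u, y), 1)) = _
    rw [N.W_one, app_comp]
    have h1 : app (JJ (X := X) hq) (cW q ((e, u), y)) = cR ((e, u), app (fι X ⊤) y) := by
      refine (app_JJ hq _).trans ?_
      unfold FJ cR
      congr 2
      exact app_fR X y (om u)
    refine Eq.trans ?_ (congrArg _ h1.symm)
    rw [app_RR']
    rfl

end main

end Vale.Agent.P241.H402
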