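import Vale.Agent.P241.H402.Factor
import Vale.Agent.P241.H14.LensTot
import Vale.Agent.P241.H891.F1
import Vale.Agent.P241.H14.G3Fin

/-!
# P241, block UB-G: the statement `G3Stmt`

If `N ⊗ Y = 0` then `N ⊗ Y^C` annihilates the zero section of the sum of `d` copies of the line
bundle of a character which is trivial on the proper subgroups.
-/

open CategoryTheory MonoidalCategory Limits Pretriangulated Filter Topology OnePoint
  Vale.Agent.P251.G Vale.Agent.P251.G.LC Vale.Agent.P251.G.Bun Vale.Agent.P093.N2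
  Vale.Agent.P251.St Vale.Agent.P241.St
  Vale.Agent.P251.I Vale.Agent.P251.T Vale.Agent.P251.Q
  Vale.Agent.P241.H588 Vale.Agent.P241.H175 Vale.Agent.P241.H486 Vale.Agent.P241.H14

set_option linter.unusedSectionVars false

noncomputable section

namespace Vale.Agent.P241.H402

section geo

variable {C : Type} [Group C] [Finite C] (lam : C →* Circle) (q j d : ℕ) (I : Type) [Fintype I]

/-- the character `lam ^ (-j)` -/
def muj (lam : C →* Circle) (j : ℕ) : C →* Circle := (lam ^ j)⁻¹

theorem muj_apply (g : C) : muj lam j g = (lam g ^ j)⁻¹ := rfl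

/-- the total space -/
def TTj : LC := Bun.tot (X := (LC.of (Lens q I) : LC)) (copies d (lensLine q I j))

/-- the map from the sphere times the vector space -/
def tauj (p : EE lam I × (GV (muj lam j) d).carrier) : TTj q j d I := ltE lam I q j d p

theorem isProperMap_tauj : IsProperMap (tauj lam q j d I) :=
  isProperMap_of_tendsto (X := LC.of (LS lam I × (Fin d → ℂ))) (Y := TTj q j d I)
    (continuous_ltE lam I q j d) (tendsto_ltE lam I q j d)

variable {q}

theorem tauj_inv (hq : q ≠ 0) (hC : Nat.card C = q) (g : C) (e : EE lam I)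
    (v : (GV (muj lam j) d).carrier) :
    tauj lam q j d I (g • e, g • v) = tauj lam q j d I (e, v) := by
  refine ltE_smul_smul I q j d hq hC g ((muj lam j g : Circle) : ℂ) ?_ e v
  rw [muj_apply, Circle.coe_inv, Circle.coe_pow]
  exact inv_mul_cancel₀ (pow_ne_zero _ (Circle.coe_ne_zero _))

end geo

section main

variable {T : SHCat} (S : Susp T)

/-- **The zero section is killed by `N ⊗ Y^C`.** -/
theorem g3 : H891.G3Stmt S := by
  intro C _ _ lam hl q j hq hC hj Y hY
  obtain ⟨d, hd⟩ := nn_vv (mu := muj lam j) (fun H hH h hh => by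
    rw [muj_apply, hj H hH h hh, inv_one]) hY
  refine ⟨d, fun N hN I _ fL fT => ?_⟩
  have hq' := isQuo_lens I hq hC hl
  by_cases hE : Nonempty (EE lam I)
  · obtain ⟨J, R, hJR⟩ := exists_factor_zero (X := Y) (E := EE lam I) (B := Lens q I)
      (q := lensMap lam I q) (TT := TTj q j d I) (isProperMap_tauj lam q j d I) hd hq'
      (tauj_inv lam j d I hq hC)
      (zeroMor (Z := (LC.of (Lens q I) : LC)) (copies d (lensLine q I j)))
      (fun e => congrArg (OnePoint.some (X := (copies d (lensLine q I j)).E))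
        (ltE_zero I q j d e).symm)
    have hW : Nul S.toSpaceFunctor N (OX Y (EE lam I)) := by
      have h1 : Nul S.toSpaceFunctor N (toLC Y.und) := ⟨fc_toLC (fc_und hY), hN⟩
      have h2 : Nul S.toSpaceFunctor N (toLC Y.und ⊗ RR) :=
        (h1.tensor_left fcRR).of_iso (β_ _ _)
      have h3 : Nul S.toSpaceFunctor N (LC.of (XR Y).carrier) := h2
      exact sphere_step hl cls_nul h3 I
    exact g3_fin' (F := S.toSpaceFunctor) (Q := ⟨LC.of (Lens q I), fL⟩) (Q' := ⟨TTj q j d I, fT⟩)
      (FCat.hom (X := ⟨LC.of (Lens q I), fL⟩) (Y := ⟨TTj q j d I, fT⟩)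
        (zeroMor (Z := (LC.of (Lens q I) : LC)) (copies d (lensLine q I j))))
      ⟨toLC (Y.fix ⊤), fc_toLC (fc_fix hY ⊤)⟩ (OX Y (EE lam I)) hW J R hJR
  · have h1 : IsEmpty (Lens q I) :=
      ⟨fun b => hE ⟨(hq'.surj b).choose⟩⟩
    have h2 : IsZero (S.toSpaceFunctor.S.obj (⟨LC.of (Lens q I), fL⟩ : FCat)) :=
      S.toSpaceFunctor.isZero (X := ⟨LC.of (Lens q I), fL⟩) h1
    have h3 : (S.toSpaceFunctor.S.map (FCat.hom (X := ⟨LC.of (Lens q I), fL⟩)
          (Y := ⟨Bun.tot (X := (LC.of (Lens q I) : LC)) (copies d (lensLine q I j)), fT⟩)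
          (Vale.Agent.P251.Q.zeroMor (Z := (LC.of (Lens q I) : LC))
            (copies d (lensLine q I j))))) = 0 := h2.eq_of_src _ _
    rw [h3, MonoidalPreadditive.zero_whiskerRight, MonoidalPreadditive.whiskerLeft_zero]

/-- **Block F1 of the upper bound.** -/
theorem f1 {S : Susp T} (X : Final.Ctx S) : H891.F1Stmt X := H891.f1_of_g3 X (g3 S)

end main

end Vale.Agent.P241.H402
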