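import Vale.Agent.P241.H402.Circle

/-!
# P241, block UB-G: all spheres

`sphere_step`: for a faithful character `lam` of `C` and a class `P` closed under extensions, `P X`
implies `P ((S(ℂ^κ) × X) / C)`.
-/

open CategoryTheory MonoidalCategory Filter Topology OnePoint Vale.Agent.P251.G
  Vale.Agent.P251.G.LC Vale.Agent.P093.N2 Vale.Agent.P241.H588

set_option linter.unusedSectionVars false

noncomputable section

namespace Vale.Agent.P241.H402

/-! ### Vector spaces with an action through a character -/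

/-- `ℂ^κ` with the action of `C` through a character -/
def VV {C : Type} [Group C] (_lam : C →* Circle) (κ : Type) : Type := κ → ℂ

namespace VV

variable {C : Type} [Group C] {lam : C →* Circle} {κ : Type}

instance : TopologicalSpace (VV lam κ) := inferInstanceAs (TopologicalSpace (κ → ℂ))
instance : T2Space (VV lam κ) := inferInstanceAs (T2Space (κ → ℂ))
instance [Finite κ] : LocallyCompactSpace (VV lam κ) :=
  inferInstanceAs (LocallyCompactSpace (κ → ℂ))

/-- the underlying vector -/
def v (x : VV lam κ) : κ → ℂ := x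

/-- constructor -/
def mk (lam : C →* Circle) (x : κ → ℂ) : VV lam κ := x

@[simp] theorem v_mk (x : κ → ℂ) : (mk lam x).v = x := rfl

theorem ext {x y : VV lam κ} (h : x.v = y.v) : x = y := h

@[continuity, fun_prop]
theorem continuous_v : Continuous (v : VV lam κ → κ → ℂ) := continuous_id

@[continuity, fun_prop]
theorem continuous_mk : Continuous (mk lam : (κ → ℂ) → VV lam κ) := continuous_id

instance : MulAction C (VV lam κ) where
  smul g x := mk lam ((lam g : ℂ) • x.v)
  one_smul x := by
    change ((lam 1 : Circle) : ℂ) • x.v = x.v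
    rw [map_one, Circle.coe_one, one_smul]
  mul_smul g h x := by
    change ((lam (g * h) : Circle) : ℂ) • x.v = (lam g : ℂ) • (lam h : ℂ) • x.v
    rw [map_mul, Circle.coe_mul, mul_smul]

@[simp] theorem smul_v (g : C) (x : VV lam κ) : (g • x).v = (lam g : ℂ) • x.v := rfl

instance : ContinuousConstSMul C (VV lam κ) where
  continuous_const_smul g := by
    change Continuous fun x : κ → ℂ => (lam g : ℂ) • x
    fun_prop

/-- as a space without action -/
def homeo (lam : C →* Circle) (κ : Type) : VV lam κ ≃ₜ (κ → ℂ) := Homeomorph.refl _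

end VV

/-- complex vector spaces as real vector spaces -/
theorem exists_homeo_real (κ : Type) [Finite κ] : ∃ n : ℕ, Nonempty ((Fin n → ℝ) ≃ₜ (κ → ℂ)) := by
  have h1 : Module.finrank ℝ (κ → ℂ) = Module.finrank ℝ (Fin (Module.finrank ℝ (κ → ℂ)) → ℝ) := by
    rw [Module.finrank_fin_fun]
  exact ⟨_, ⟨(ContinuousLinearEquiv.ofFinrankEq h1).symm.toHomeomorph⟩⟩

theorem Cls.complex {P : LC → Prop} (hP : Cls P) {X : LC} (h : P X) {C : Type} [Group C]
    (lam : C →* Circle) (κ : Type) [Finite κ] : P (LC.of (VV lam κ × X)) := by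
  obtain ⟨n, ⟨e⟩⟩ := exists_homeo_real κ
  exact hP.homeo (Y := LC.of (VV lam κ × X)) (hP.reals h n)
    ((e.trans (VV.homeo lam κ).symm).prodCongr (Homeomorph.refl X))

/-! ### Normalisation -/

section norm

variable {C : Type} [Group C] {lam : C →* Circle} {κ : Type} [Fintype κ]

/-- a non zero vector, normalised -/
def nz (lam : C →* Circle) (w : κ → ℂ) (h : nsq w ≠ 0) : EE lam κ :=
  EE.mk lam (((1 / Real.sqrt (nsq w) : ℝ) : ℂ) • w) (by
    rw [nsq_smul, Complex.normSq_ofReal, ← sq, div_pow, Real.sq_sqrt (nsq_nonneg w), one_pow,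
      one_div, inv_mul_cancel₀ h])

theorem nz_v (w : κ → ℂ) (h : nsq w ≠ 0) :
    (nz lam w h).v = ((1 / Real.sqrt (nsq w) : ℝ) : ℂ) • w := rfl

theorem continuous_nz {Z : Type*} [TopologicalSpace Z] {f : Z → κ → ℂ} (hf : Continuous f)
    (h : ∀ z, nsq (f z) ≠ 0) : Continuous fun z => nz lam (f z) (h z) := by
  refine EE.continuous_mk (f := fun z => ((1 / Real.sqrt (nsq (f z)) : ℝ) : ℂ) • f z) ?_ _
  have h1 : Continuous fun z => 1 / Real.sqrt (nsq (f z)) :=
    continuous_const.div (Real.continuous_sqrt.comp (continuous_nsq.comp hf))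
      fun z => (Real.sqrt_ne_zero (nsq_nonneg _)).mpr (h z)
  exact (Complex.continuous_ofReal.comp h1).smul hf

theorem nz_of_one {w : κ → ℂ} (h : nsq w ≠ 0) (h1 : nsq w = 1) : nz lam w h = EE.mk lam w h1 := by
  refine LS.ext ?_
  rw [nz_v, h1]
  simp

theorem smul_nz (g : C) (w : κ → ℂ) (h : nsq w ≠ 0) (h' : nsq ((lam g : ℂ) • w) ≠ 0) :
    g • nz lam w h = nz lam ((lam g : ℂ) • w) h' := by
  refine LS.ext ?_
  rw [EE.smul_v, nz_v, nz_v, nsq_smul, Circle.normSq_coe, one_mul, smul_comm]

end norm

/-! ### Soft threshold -/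

/-- the soft threshold -/
def sft (p : ℝ × ℂ) : ℂ := ((max 0 (‖p.2‖ - p.1) / ‖p.2‖ : ℝ) : ℂ) * p.2

theorem norm_sft {p : ℝ × ℂ} (hp : 0 ≤ p.1) : ‖sft p‖ = max 0 (‖p.2‖ - p.1) := by
  rw [sft, norm_mul, Complex.norm_real, Real.norm_eq_abs, abs_div, abs_norm,
    abs_of_nonneg (le_max_left _ _)]
  by_cases h : p.2 = 0
  · rw [h, norm_zero, mul_zero]
    exact (max_eq_left (by linarith)).symm
  · rw [div_mul_cancel₀ _ (norm_ne_zero_iff.mpr h)]

theorem continuousOn_sft : ContinuousOn sft {p | 0 ≤ p.1} := by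
  intro p hp
  by_cases h : p.2 = 0
  · have h0 : sft p = 0 := by rw [sft, h, mul_zero]
    refine ContinuousWithinAt.congr_of_eventuallyEq (f := sft) ?_ (Eventually.of_forall fun _ => rfl) rfl
    rw [ContinuousWithinAt, h0]
    refine squeeze_zero_norm' (a := fun q : ℝ × ℂ => ‖q.2‖) ?_ ?_
    · filter_upwards [self_mem_nhdsWithin] with q hq
      have hq' : 0 ≤ q.1 := hq
      rw [norm_sft hq']
      exact max_le (norm_nonneg _) (by linarith)
    · have h1 : Tendsto (fun q : ℝ × ℂ => ‖q.2‖) (𝓝 p) (𝓝 ‖p.2‖) :=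
        (continuous_norm.comp continuous_snd).tendsto p
      rw [h, norm_zero] at h1
      exact h1.mono_left nhdsWithin_le_nhds
  · have h1 : ContinuousAt sft p := by
      have h2 : ContinuousAt (fun q : ℝ × ℂ => (max 0 (‖q.2‖ - q.1) / ‖q.2‖ : ℝ)) p := by
        refine ContinuousAt.div (Continuous.continuousAt (by fun_prop))
          (Continuous.continuousAt (by fun_prop)) (norm_ne_zero_iff.mpr h)
      exact (Complex.continuous_ofReal.continuousAt.comp h2).mul continuous_snd.continuousAt
    exact h1.continuousWithinAt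

theorem sft_zero (z : ℂ) : sft (0, z) = z := by
  by_cases h : z = 0
  · rw [h, sft, mul_zero]
  · have h1 : ‖z‖ ≠ 0 := norm_ne_zero_iff.mpr h
    rw [sft]
    change ((max 0 (‖z‖ - 0) / ‖z‖ : ℝ) : ℂ) * z = z
    rw [sub_zero, max_eq_right (norm_nonneg z), div_self h1, Complex.ofReal_one, one_mul]

theorem sft_smul (c : Circle) (t : ℝ) (z : ℂ) : sft (t, (c : ℂ) * z) = (c : ℂ) * sft (t, z) := by
  rw [sft, sft]
  have h1 : ‖(c : ℂ) * z‖ = ‖z‖ := by rw [norm_mul, Circle.norm_coe, one_mul]
  change ((max 0 (‖(c : ℂ) * z‖ - t) / ‖(c : ℂ) * z‖ : ℝ) : ℂ) * ((c : ℂ) * z) =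
    (c : ℂ) * (((max 0 (‖z‖ - t) / ‖z‖ : ℝ) : ℂ) * z)
  rw [h1]
  ring

theorem sft_of_le {t : ℝ} {z : ℂ} (h : ‖z‖ ≤ t) : sft (t, z) = 0 := by
  rw [sft]
  change ((max 0 (‖z‖ - t) / ‖z‖ : ℝ) : ℂ) * z = 0
  rw [max_eq_left (by linarith), zero_div, Complex.ofReal_zero, zero_mul]

/-! ### The retraction -/

section retr

variable {C : Type} [Group C] {lam : C →* Circle} {κ : Type} [Fintype κ]

theorem nsq_option (w : Option κ → ℂ) :
    nsq w = Complex.normSq (w none) + nsq fun i => w (Option.some i) := by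
  unfold nsq
  rw [Fintype.sum_option]

/-- the vector of the retraction -/
def jv (p : EE lam (Option κ) × unitInterval) (i : Option κ) : ℂ :=
  i.elim (sft ((p.2 : ℝ) / 2, p.1.v none)) fun j => p.1.v (Option.some j)

theorem continuous_jv : Continuous (jv : EE lam (Option κ) × unitInterval → Option κ → ℂ) := by
  refine continuous_pi fun i => ?_
  cases i with
  | none =>
    change Continuous fun p : EE lam (Option κ) × unitInterval =>
      sft ((p.2 : ℝ) / 2, p.1.v none)
    refine continuousOn_sft.comp_continuous (by fun_prop) ?_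
    intro p
    exact div_nonneg p.2.2.1 zero_le_two
  | some j =>
    change Continuous fun p : EE lam (Option κ) × unitInterval => p.1.v (Option.some j)
    fun_prop

theorem norm_none_le (x : EE lam (Option κ)) : ‖x.v none‖ ≤ 1 := by
  have h1 := x.nsq_v
  rw [nsq_option, ← Complex.sq_norm] at h1
  have h2 := nsq_nonneg fun i => x.v (Option.some i)
  nlinarith [norm_nonneg (x.v none)]

theorem nsq_jv_ne (p : EE lam (Option κ) × unitInterval) : nsq (jv p) ≠ 0 := by
  have h1 := p.1.nsq_v
  have h2 := norm_none_le p.1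
  rw [nsq_option, ← Complex.sq_norm] at h1
  have h3 : nsq (jv p) = ‖sft ((p.2 : ℝ) / 2, p.1.v none)‖ ^ 2 +
      nsq fun i => p.1.v (Option.some i) := by
    rw [nsq_option, ← Complex.sq_norm]
    rfl
  rw [h3, norm_sft (div_nonneg p.2.2.1 zero_le_two)]
  change max 0 (‖p.1.v none‖ - (p.2 : ℝ) / 2) ^ 2 + _ ≠ 0
  have h4 : (nsq fun i => p.1.v (Option.some i)) = 1 - ‖p.1.v none‖ ^ 2 := by linarith
  rw [h4]
  have h5 := p.2.2.1
  have h6 := p.2.2.2
  rcases h2.lt_or_eq with h7 | h7
  · have : 0 < 1 - ‖p.1.v none‖ ^ 2 := by nlinarith [norm_nonneg (p.1.v none)]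
    positivity
  · rw [h7, max_eq_right (by linarith)]
    have : 0 < 1 - (p.2 : ℝ) / 2 := by linarith
    nlinarith [sq_nonneg (1 - (p.2 : ℝ) / 2)]

/-- the retraction, space coordinate -/
def jR (p : EE lam (Option κ) × unitInterval) : EE lam (Option κ) := nz lam (jv p) (nsq_jv_ne p)

/-- the retraction, time coordinate -/
def jU (p : EE lam (Option κ) × unitInterval) : unitInterval :=
  Set.projIcc 0 1 zero_le_one ((p.2 : ℝ) - min 1 (2 * ‖p.1.v none‖))

theorem continuous_jR : Continuous (jR : EE lam (Option κ) × unitInterval → _) :=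
  continuous_nz continuous_jv _

theorem continuous_jU : Continuous (jU : EE lam (Option κ) × unitInterval → _) := by
  refine continuous_projIcc.comp ?_
  fun_prop

theorem jR_zero (x : EE lam (Option κ)) : jR (x, 0) = x := by
  have h1 : jv (x, (0 : unitInterval)) = x.v := by
    funext i
    cases i with
    | none =>
      change sft (((0 : unitInterval) : ℝ) / 2, x.v none) = x.v none
      rw [Set.Icc.coe_zero, zero_div, sft_zero]
    | some j => rfl
  have h2 : nsq (jv (x, (0 : unitInterval))) = 1 := by rw [h1, x.nsq_v]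
  rw [jR, nz_of_one _ h2]
  exact LS.ext h1

theorem jU_zero (x : EE lam (Option κ)) : jU (x, 0) = 0 := by
  refine Set.projIcc_of_le_left zero_le_one ?_
  change (0 : ℝ) - min 1 (2 * ‖x.v none‖) ≤ 0
  have : 0 ≤ min 1 (2 * ‖x.v none‖) := le_min zero_le_one (by positivity)
  linarith

theorem jR_of_none (x : EE lam (Option κ)) (t : unitInterval) (h : x.v none = 0) :
    jR (x, t) = x := by
  have h1 : jv (x, t) = x.v := by
    funext i
    cases i with
    | none =>
      change sft ((t : ℝ) / 2, x.v none) = x.v none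
      rw [h]
      refine sft_of_le ?_
      rw [norm_zero]
      exact div_nonneg t.2.1 zero_le_two
    | some j => rfl
  have h2 : nsq (jv (x, t)) = 1 := by rw [h1, x.nsq_v]
  rw [jR, nz_of_one _ h2]
  exact LS.ext h1

theorem jU_of_none (x : EE lam (Option κ)) (t : unitInterval) (h : x.v none = 0) :
    jU (x, t) = t := by
  have h1 : (t : ℝ) - min 1 (2 * ‖x.v none‖) = t := by
    rw [h, norm_zero, mul_zero, min_eq_right zero_le_one, sub_zero]
  exact (congrArg _ h1).trans (Set.projIcc_val zero_le_one t)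

theorem j_range (x : EE lam (Option κ)) (t : unitInterval) :
    jU (x, t) = 0 ∨ (jR (x, t)).v none = 0 := by
  by_cases h : (t : ℝ) ≤ min 1 (2 * ‖x.v none‖)
  · left
    refine Set.projIcc_of_le_left zero_le_one ?_
    change (t : ℝ) - min 1 (2 * ‖x.v none‖) ≤ 0
    linarith
  · right
    rw [not_le, min_lt_iff] at h
    have h1 : 2 * ‖x.v none‖ < t := h.resolve_left (not_lt.mpr t.2.2)
    have h2 : jv (x, t) none = 0 := sft_of_le (by linarith)
    rw [jR, nz_v, Pi.smul_apply, h2, smul_zero]

theorem jR_smul (g : C) (x : EE lam (Option κ)) (t : unitInterval) :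
    jR (g • x, t) = g • jR (x, t) := by
  have h1 : jv (g • x, t) = (lam g : ℂ) • jv (x, t) := by
    funext i
    cases i with
    | none =>
      change sft ((t : ℝ) / 2, (lam g : ℂ) * x.v none) = (lam g : ℂ) * sft ((t : ℝ) / 2, x.v none)
      exact sft_smul _ _ _
    | some j => rfl
  have h2 : nsq ((lam g : ℂ) • jv (x, t)) ≠ 0 := h1 ▸ nsq_jv_ne (g • x, t)
  rw [jR, jR, smul_nz g _ _ h2]
  congr 1

theorem jU_smul (g : C) (x : EE lam (Option κ)) (t : unitInterval) :
    jU (g • x, t) = jU (x, t) := by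
  have h1 : ‖(g • x).v none‖ = ‖x.v none‖ := by
    rw [EE.smul_v, Pi.smul_apply, norm_smul, Circle.norm_coe, one_mul]
  unfold jU
  congr 3
  change 2 * ‖(g • x).v none‖ = 2 * ‖x.v none‖
  rw [h1]

end retr

/-! ### The strata -/

section strata

variable {C : Type} [Group C] {lam : C →* Circle} {κ : Type} [Fintype κ]

/-- the closed stratum of the sphere -/
def jz (x : EE lam κ) : EE lam (Option κ) :=
  EE.mk lam (fun i => i.elim 0 x.v) (by
    rw [nsq_option]
    change Complex.normSq 0 + nsq x.v = 1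
    rw [map_zero, zero_add, x.nsq_v])

@[simp] theorem jz_none (x : EE lam κ) : (jz x).v none = 0 := rfl
@[simp] theorem jz_some (x : EE lam κ) (i : κ) : (jz x).v (Option.some i) = x.v i := rfl

theorem jz_smul (g : C) (x : EE lam κ) : jz (g • x) = g • jz x := by
  refine LS.ext (funext fun i => ?_)
  cases i with
  | none => exact (mul_zero _).symm
  | some j => rfl

theorem continuous_jz : Continuous (jz : EE lam κ → EE lam (Option κ)) := by
  refine EE.continuous_mk (continuous_pi fun i => ?_) _
  cases i with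
  | none => exact continuous_const
  | some j => exact (continuous_apply j).comp EE.continuous_v

theorem jz_injective : Function.Injective (jz : EE lam κ → EE lam (Option κ)) := fun _ _ h =>
  LS.ext (funext fun i => congrArg (fun z : EE lam (Option κ) => z.v (Option.some i)) h)

theorem isClosedEmbedding_jz : IsClosedEmbedding (jz : EE lam κ → EE lam (Option κ)) :=
  continuous_jz.isClosedEmbedding jz_injective

theorem mem_range_jz {x : EE lam (Option κ)} : x ∈ Set.range jz ↔ x.v none = 0 := by
  constructor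
  · rintro ⟨y, rfl⟩
    rfl
  · intro h
    refine ⟨EE.mk lam (fun i => x.v (Option.some i)) ?_, LS.ext (funext fun i => ?_)⟩
    · have h1 := x.nsq_v
      rw [nsq_option, h, map_zero, zero_add] at h1
      exact h1
    · cases i with
      | none => exact h.symm
      | some j => rfl

/-- the vector of the open stratum -/
def uv (p : EE lam Unit × VV lam κ) (i : Option κ) : ℂ := i.elim (p.1.v ()) p.2.v

theorem normSq_unit (x : EE lam Unit) : Complex.normSq (x.v ()) = 1 := by
  have h2 := x.nsq_v
  simpa [nsq] using h2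

theorem nsq_uv (p : EE lam Unit × VV lam κ) : nsq (uv p) = 1 + nsq p.2.v := by
  rw [nsq_option]
  change Complex.normSq (p.1.v ()) + nsq p.2.v = _
  rw [normSq_unit]

theorem nsq_uv_ne (p : EE lam Unit × VV lam κ) : nsq (uv p) ≠ 0 := by
  rw [nsq_uv]
  have := nsq_nonneg p.2.v
  positivity

/-- the open stratum of the sphere -/
def ju (p : EE lam Unit × VV lam κ) : EE lam (Option κ) := nz lam (uv p) (nsq_uv_ne p)

theorem continuous_uv : Continuous (uv : EE lam Unit × VV lam κ → Option κ → ℂ) := by
  refine continuous_pi fun i => ?_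
  cases i with
  | none =>
    exact (continuous_apply ()).comp (EE.continuous_v.comp continuous_fst)
  | some j =>
    exact (continuous_apply j).comp (VV.continuous_v.comp continuous_snd)

theorem continuous_ju : Continuous (ju : EE lam Unit × VV lam κ → EE lam (Option κ)) :=
  continuous_nz continuous_uv _

theorem ju_smul (g : C) (p : EE lam Unit × VV lam κ) : ju (g • p) = g • ju p := by
  have h1 : uv (g • p) = (lam g : ℂ) • uv p := by
    funext i
    cases i with
    | none => rfl
    | some j => rfl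
  have h2 : nsq ((lam g : ℂ) • uv p) ≠ 0 := h1 ▸ nsq_uv_ne (g • p)
  rw [ju, ju, smul_nz g _ _ h2]
  congr 1

theorem ju_none_ne (p : EE lam Unit × VV lam κ) : (ju p).v none ≠ 0 := by
  have h1 : p.1.v () ≠ 0 := by
    intro h
    have := normSq_unit p.1
    rw [h, map_zero] at this
    exact zero_ne_one this
  have h2 : Real.sqrt (nsq (uv p)) ≠ 0 := (Real.sqrt_ne_zero (nsq_nonneg _)).mpr (nsq_uv_ne p)
  rw [ju, nz_v, Pi.smul_apply, smul_eq_mul]
  exact mul_ne_zero (Complex.ofReal_ne_zero.mpr (one_div_ne_zero h2)) h1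

theorem norm_ju_none (p : EE lam Unit × VV lam κ) :
    ‖(ju p).v none‖ = 1 / Real.sqrt (nsq (uv p)) := by
  have h1 : ‖p.1.v ()‖ = 1 := by
    have h := normSq_unit p.1
    rw [← Complex.sq_norm] at h
    exact (pow_eq_one_iff_of_nonneg (norm_nonneg _) two_ne_zero).mp h
  rw [ju, nz_v, Pi.smul_apply, norm_smul, Complex.norm_real, Real.norm_eq_abs,
    abs_of_nonneg (by positivity)]
  change _ * ‖p.1.v ()‖ = _
  rw [h1, mul_one]

/-- the open stratum as a subspace -/
def juHomeo : EE lam Unit × VV lam κ ≃ₜ {x : EE lam (Option κ) // x.v none ≠ 0} where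
  toFun p := ⟨ju p, ju_none_ne p⟩
  invFun x := (EE.mk lam (fun _ => ((1 / ‖x.1.v none‖ : ℝ) : ℂ) * x.1.v none) (by
      have h : ‖x.1.v none‖ ≠ 0 := norm_ne_zero_iff.mpr x.2
      simp only [nsq, Finset.univ_unique, Finset.sum_singleton, map_mul, Complex.normSq_ofReal]
      rw [← Complex.sq_norm]
      field_simp),
    VV.mk lam fun i => ((1 / ‖x.1.v none‖ : ℝ) : ℂ) * x.1.v (Option.some i))
  left_inv p := by
    have h1 : ‖(ju p).v none‖ = 1 / Real.sqrt (nsq (uv p)) := norm_ju_none p
    have h2 : Real.sqrt (nsq (uv p)) ≠ 0 := (Real.sqrt_ne_zero (nsq_nonneg _)).mpr (nsq_uv_ne p)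
    have h3 : ∀ i, ((1 / ‖(ju p).v none‖ : ℝ) : ℂ) * (ju p).v i = uv p i := by
      intro i
      rw [h1, ju, nz_v, Pi.smul_apply, smul_eq_mul, ← mul_assoc, ← Complex.ofReal_mul]
      have : 1 / (1 / Real.sqrt (nsq (uv p))) * (1 / Real.sqrt (nsq (uv p))) = 1 := by
        field_simp
      rw [this, Complex.ofReal_one, one_mul]
    refine Prod.ext ?_ ?_
    · exact LS.ext (funext fun i => h3 none)
    · exact VV.ext (funext fun i => h3 (Option.some i))
  right_inv x := by
    apply Subtype.ext
    have h : ‖x.1.v none‖ ≠ 0 := norm_ne_zero_iff.mpr x.2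
    have h0 : 0 < ‖x.1.v none‖ := lt_of_le_of_ne (norm_nonneg _) h.symm
    let p : EE lam Unit × VV lam κ := (EE.mk lam (fun _ => ((1 / ‖x.1.v none‖ : ℝ) : ℂ) *
      x.1.v none) (by
      simp only [nsq, Finset.univ_unique, Finset.sum_singleton, map_mul, Complex.normSq_ofReal]
      rw [← Complex.sq_norm]
      field_simp),
      VV.mk lam fun i => ((1 / ‖x.1.v none‖ : ℝ) : ℂ) * x.1.v (Option.some i))
    change ju p = x.1
    have h1 : uv p = ((1 / ‖x.1.v none‖ : ℝ) : ℂ) • x.1.v := by
      funext i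
      cases i with
      | none => rfl
      | some j => rfl
    have h2 : nsq (uv p) = (1 / ‖x.1.v none‖) ^ 2 := by
      rw [h1, nsq_smul, x.1.nsq_v, mul_one, Complex.normSq_ofReal, sq]
    refine LS.ext ?_
    rw [ju, nz_v, h2, Real.sqrt_sq (by positivity), h1, smul_smul, ← Complex.ofReal_mul]
    have h3 : 1 / (1 / ‖x.1.v none‖) * (1 / ‖x.1.v none‖) = 1 := by field_simp
    rw [h3, Complex.ofReal_one, one_smul]
  continuous_toFun := continuous_ju.subtype_mk _
  continuous_invFun := by
    have h1 : Continuous fun x : {x : EE lam (Option κ) // x.v none ≠ 0} =>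
        ((1 / ‖x.1.v none‖ : ℝ) : ℂ) := by
      refine Complex.continuous_ofReal.comp (continuous_const.div ?_ ?_)
      · exact continuous_norm.comp ((continuous_apply none).comp
          (EE.continuous_v.comp continuous_subtype_val))
      · exact fun x => norm_ne_zero_iff.mpr x.2
    refine Continuous.prodMk (EE.continuous_mk (continuous_pi fun _ => h1.mul ?_) _)
      (VV.continuous_mk.comp (continuous_pi fun i => h1.mul ?_))
    · exact (continuous_apply none).comp (EE.continuous_v.comp continuous_subtype_val)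
    · exact (continuous_apply (Option.some i)).comp (EE.continuous_v.comp continuous_subtype_val)

theorem isOpen_none : IsOpen {x : EE lam (Option κ) | x.v none ≠ 0} :=
  isOpen_ne_fun ((continuous_apply none).comp EE.continuous_v) continuous_const

theorem isOpenEmbedding_ju :
    IsOpenEmbedding (ju : EE lam Unit × VV lam κ → EE lam (Option κ)) := by
  have h : (ju : EE lam Unit × VV lam κ → EE lam (Option κ)) =
      (Subtype.val : {x : EE lam (Option κ) // x.v none ≠ 0} → _) ∘ juHomeo := rfl
  rw [h]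
  exact isOpen_none.isOpenEmbedding_subtypeVal.comp juHomeo.isOpenEmbedding

theorem mem_range_ju {x : EE lam (Option κ)} :
    x ∈ Set.range (ju : EE lam Unit × VV lam κ → EE lam (Option κ)) ↔ x.v none ≠ 0 := by
  constructor
  · rintro ⟨p, rfl⟩
    exact ju_none_ne p
  · intro h
    exact ⟨juHomeo.symm ⟨x, h⟩, congrArg Subtype.val (juHomeo.apply_symm_apply ⟨x, h⟩)⟩

end strata

/-! ### The step -/

section step

variable {C : Type} [Group C] [Finite C] {lam : C →* Circle} {κ : Type} [Fintype κ]
  {X : Type} [TopologicalSpace X] [T2Space X] [LocallyCompactSpace X] [MulAction C X]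
  [ContinuousConstSMul C X]

variable (lam κ X) in
/-- the closed stratum, before passing to orbits -/
def ozf (p : EE lam κ × X) : EE lam (Option κ) × X := (jz p.1, p.2)

theorem equiva_ozf : Equiva C (ozf lam κ X) := fun g p => Prod.ext (jz_smul g p.1) rfl

theorem isClosedEmbedding_ozf : IsClosedEmbedding (ozf lam κ X) :=
  isClosedEmbedding_jz.prodMap IsClosedEmbedding.id

theorem mem_range_ozf {x : EE lam (Option κ)} {y : X} :
    (x, y) ∈ Set.range (ozf lam κ X) ↔ x.v none = 0 := by
  rw [← mem_range_jz]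
  constructor
  · rintro ⟨p, hp⟩
    exact ⟨p.1, congrArg Prod.fst hp⟩
  · rintro ⟨a, rfl⟩
    exact ⟨(a, y), rfl⟩

variable (lam κ X) in
/-- the open stratum, before passing to orbits -/
def ouf (p : EE lam Unit × (VV lam κ × X)) : EE lam (Option κ) × X := (ju (p.1, p.2.1), p.2.2)

theorem equiva_ouf : Equiva C (ouf lam κ X) := fun g p =>
  Prod.ext (ju_smul g (p.1, p.2.1)) rfl

theorem isOpenEmbedding_ouf : IsOpenEmbedding (ouf lam κ X) := by
  have h1 : ouf lam κ X = Prod.map (ju : EE lam Unit × VV lam κ → EE lam (Option κ)) id ∘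
      (Homeomorph.prodAssoc (EE lam Unit) (VV lam κ) X).symm := funext fun _ => rfl
  rw [h1]
  exact (isOpenEmbedding_ju.prodMap IsOpenEmbedding.id).comp
    (Homeomorph.prodAssoc (EE lam Unit) (VV lam κ) X).symm.isOpenEmbedding

theorem mem_range_ouf {x : EE lam (Option κ)} {y : X} :
    (x, y) ∈ Set.range (ouf lam κ X) ↔ x.v none ≠ 0 := by
  rw [← mem_range_ju]
  constructor
  · rintro ⟨p, hp⟩
    exact ⟨(p.1, p.2.1), congrArg Prod.fst hp⟩
  · rintro ⟨a, rfl⟩
    exact ⟨(a.1, (a.2, y)), rfl⟩

variable (lam κ X) in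
/-- the closed stratum -/
def oz : Orb C (EE lam κ × X) → Orb C (EE lam (Option κ) × X) := orbMap _ equiva_ozf

variable (lam κ X) in
/-- the open stratum -/
def ou : Orb C (EE lam Unit × (VV lam κ × X)) → Orb C (EE lam (Option κ) × X) :=
  orbMap _ equiva_ouf

theorem isClosedEmbedding_oz : IsClosedEmbedding (oz lam κ X) :=
  isClosedEmbedding_orbMap _ isClosedEmbedding_ozf

theorem isOpenEmbedding_ou : IsOpenEmbedding (ou lam κ X) :=
  isOpenEmbedding_orbMap _ isOpenEmbedding_ouf

theorem mem_range_oz {x : EE lam (Option κ)} {y : X} :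
    (orb (x, y) : Orb C (EE lam (Option κ) × X)) ∈ Set.range (oz lam κ X) ↔ x.v none = 0 :=
  (mem_range_orbMap _).trans mem_range_ozf

theorem mem_range_ou {x : EE lam (Option κ)} {y : X} :
    (orb (x, y) : Orb C (EE lam (Option κ) × X)) ∈ Set.range (ou lam κ X) ↔ x.v none ≠ 0 :=
  (mem_range_orbMap _).trans mem_range_ouf

theorem isCompl_oz_ou : IsCompl (Set.range (oz lam κ X)) (Set.range (ou lam κ X)) := by
  have h : (Set.range (oz lam κ X))ᶜ = Set.range (ou lam κ X) := by
    ext y
    induction y using Orb.ind with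
    | h w => rw [Set.mem_compl_iff, mem_range_oz, mem_range_ou]
  rw [← h]
  exact isCompl_compl

theorem cofib_oz : Cofib (ofClosed (X := LC.of (Orb C (EE lam κ × X)))
    (Y := LC.of (Orb C (EE lam (Option κ) × X))) (oz lam κ X) isClosedEmbedding_oz) := by
  refine cofib_of_quot (W := EE lam (Option κ)) (X := LC.of X) isClosedEmbedding_oz
    (fun p => orb p) isProperMap_orb orb_surjective jR continuous_jR jU continuous_jU ?_ ?_ ?_ ?_
  · intro w x v y t h
    obtain ⟨g, hg⟩ := orb_eq_iff.mp h
    have h1 : g • w = v := congrArg Prod.fst hg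
    have h2 : g • x = y := congrArg Prod.snd hg
    subst h1
    subst h2
    refine ⟨?_, (jU_smul g w t).symm⟩
    rw [jR_smul]
    exact (orb_smul g (jR (w, t), x)).symm
  · exact fun w => ⟨jR_zero w, jU_zero w⟩
  · intro w x t h
    have h1 := mem_range_oz.mp h
    exact ⟨by rw [jR_of_none _ _ h1], jU_of_none _ _ h1⟩
  · intro w x t
    exact (j_range w t).imp_right fun h => mem_range_oz.mpr h

/-- one more coordinate -/
theorem join_step (hl : Function.Injective lam) {P : LC → Prop} (hP : Cls P)
    (hX : P (LC.of X)) (h : P (LC.of (Orb C (EE lam κ × X)))) :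
    P (LC.of (Orb C (EE lam (Option κ) × X))) :=
  hP.ext (A := LC.of (Orb C (EE lam κ × X))) (U := LC.of (Orb C (EE lam Unit × (VV lam κ × X))))
    (oz lam κ X) isClosedEmbedding_oz (ou lam κ X) isOpenEmbedding_ou isCompl_oz_ou cofib_oz h
    (circle_step hl hP (hP.complex hX lam κ))

/-- **All spheres.** -/
theorem sphere_step (hl : Function.Injective lam) {P : LC → Prop} (hP : Cls P)
    (hX : P (LC.of X)) (κ : Type) [hκ : Fintype κ] : P (LC.of (Orb C (EE lam κ × X))) := by
  suffices H : ∀ hκ : Fintype κ, P (LC.of (Orb C (@EE C _ lam κ hκ × X))) from H hκ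
  clear hκ
  have hfin : ∀ (κ : Type), Finite κ → ∀ hκ : Fintype κ,
      P (LC.of (Orb C (@EE C _ lam κ hκ × X))) := by
    intro κ hf
    refine Finite.induction_empty_option (P := fun κ => ∀ hκ : Fintype κ,
      P (LC.of (Orb C (@EE C _ lam κ hκ × X)))) ?_ ?_ ?_ κ
    · intro α β e ih hβ
      let _ : Fintype α := Fintype.ofEquiv β e.symm
      refine hP.homeo (Y := LC.of (Orb C (EE lam β × X))) (ih inferInstance)
        (orbHomeo ((EE.reindex lam e).prodCongr (Homeomorph.refl X)) fun g p => rfl)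
    · intro h0
      refine hP.empty _ ⟨fun y => ?_⟩
      obtain ⟨⟨v, x⟩, -⟩ := orb_surjective y
      have h1 := v.nsq_v
      simp [nsq] at h1
    · intro α hα ih hO
      have h1 := join_step (κ := α) hl hP hX (ih hα)
      obtain rfl : hO = instFintypeOption := Subsingleton.elim _ _
      exact h1
  intro hκ
  exact hfin κ (Finite.of_fintype κ) hκ

end step

end Vale.Agent.P241.H402
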