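import Vale.Agent.P093.N2.QuotDefs
import Vale.Agent.P093.N2.OrbTop

/-!
# P241, block UB-G: orbit spaces

* `orbMap` : functoriality of `Orb C W` in continuous equivariant maps of `W`;
* closed / open equivariant embeddings give closed / open embeddings of the orbit spaces;
* `orbHomeo` ; `orbFree` : `Orb C (C × Z) ≃ₜ Z`.
-/

open Topology Vale.Agent.P093.N2

namespace Vale.Agent.P241.H402

variable {C : Type} [Group C]

section basic

variable {W W' W'' : Type} [MulAction C W] [MulAction C W'] [MulAction C W'']

/-- equivariant maps -/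
def Equiva (C : Type) [Group C] {W W' : Type} [MulAction C W] [MulAction C W'] (f : W → W') :
    Prop := ∀ (g : C) (w : W), f (g • w) = g • f w

/-- the map of orbit spaces -/
def orbMap (f : W → W') (hf : Equiva C f) : Orb C W → Orb C W' :=
  Quotient.lift (fun w => (orb (f w) : Orb C W')) (by
    intro a b h
    obtain ⟨g, hg⟩ := orb_eq_iff.mp (Quotient.sound h : (orb a : Orb C W) = orb b)
    refine orb_eq_iff.mpr ⟨g, ?_⟩
    rw [← hf, hg])

@[simp] theorem orbMap_orb (f : W → W') (hf : Equiva C f) (w : W) :
    orbMap f hf (orb w) = orb (f w) := rfl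

theorem orbMap_injective {f : W → W'} (hf : Equiva C f) (hi : Function.Injective f) :
    Function.Injective (orbMap f hf) := by
  intro x y h
  induction x using Orb.ind with
  | h a =>
    induction y using Orb.ind with
    | h b =>
      obtain ⟨g, hg⟩ := orb_eq_iff.mp h
      refine orb_eq_iff.mpr ⟨g, hi ?_⟩
      rw [hf, hg]

theorem mem_range_orbMap {f : W → W'} (hf : Equiva C f) {w : W'} :
    (orb w : Orb C W') ∈ Set.range (orbMap f hf) ↔ w ∈ Set.range f := by
  constructor
  · rintro ⟨x, hx⟩
    induction x using Orb.ind with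
    | h a =>
      obtain ⟨g, hg⟩ := orb_eq_iff.mp hx
      exact ⟨g • a, by rw [hf, hg]⟩
  · rintro ⟨a, rfl⟩
    exact ⟨orb a, rfl⟩

theorem orbMap_surjective {f : W → W'} (hf : Equiva C f) (hs : Function.Surjective f) :
    Function.Surjective (orbMap f hf) := by
  intro y
  induction y using Orb.ind with
  | h b => exact (mem_range_orbMap hf).mpr (hs b)

theorem isCompl_range_orbMap {f : W → W''} {g : W' → W''} (hf : Equiva C f) (hg : Equiva C g)
    (h : IsCompl (Set.range f) (Set.range g)) :
    IsCompl (Set.range (orbMap f hf)) (Set.range (orbMap g hg)) := by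
  have h1 : (Set.range (orbMap f hf))ᶜ = Set.range (orbMap g hg) := by
    ext y
    induction y using Orb.ind with
    | h b =>
      rw [Set.mem_compl_iff, mem_range_orbMap, mem_range_orbMap, ← h.compl_eq, Set.mem_compl_iff]
  rw [← h1]
  exact isCompl_compl

end basic

section top

variable {W W' : Type} [MulAction C W] [MulAction C W']
  [TopologicalSpace W] [TopologicalSpace W'] [ContinuousConstSMul C W] [ContinuousConstSMul C W']

theorem continuous_orbMap {f : W → W'} (hf : Equiva C f) (hc : Continuous f) :
    Continuous (orbMap f hf) :=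
  (isOpenQuotientMap_orb (G := C) (W := W)).isQuotientMap.continuous_iff.mpr
    (continuous_orb.comp hc)

theorem isEmbedding_orbMap {f : W → W'} (hf : Equiva C f) (he : IsEmbedding f) :
    IsEmbedding (orbMap f hf) := by
  refine isEmbedding_of_saturated (π := (orb : W' → Orb C W')) (π' := (orb : W → Orb C W))
    (ι := f) isOpenQuotientMap_orb.isOpenMap continuous_orb
    isOpenQuotientMap_orb.isQuotientMap he (fun _ => rfl) (orbMap_injective hf he.injective) ?_
  intro p p' h
  obtain ⟨g, hg⟩ := orb_eq_iff.mp h.symm
  exact ⟨g • p', by rw [hf, hg]⟩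

theorem isClosedEmbedding_orbMap {f : W → W'} (hf : Equiva C f) (he : IsClosedEmbedding f) :
    IsClosedEmbedding (orbMap f hf) := by
  refine ⟨isEmbedding_orbMap hf he.isEmbedding, ?_⟩
  rw [← (isOpenQuotientMap_orb (G := C) (W := W')).isQuotientMap.isClosed_preimage]
  have h : (orb : W' → Orb C W') ⁻¹' Set.range (orbMap f hf) = Set.range f := by
    ext w
    exact mem_range_orbMap hf
  rw [h]
  exact he.isClosed_range

theorem isOpenEmbedding_orbMap {f : W → W'} (hf : Equiva C f) (he : IsOpenEmbedding f) :
    IsOpenEmbedding (orbMap f hf) := by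
  refine ⟨isEmbedding_orbMap hf he.isEmbedding, ?_⟩
  rw [← (isOpenQuotientMap_orb (G := C) (W := W')).isQuotientMap.isOpen_preimage]
  have h : (orb : W' → Orb C W') ⁻¹' Set.range (orbMap f hf) = Set.range f := by
    ext w
    exact mem_range_orbMap hf
  rw [h]
  exact he.isOpen_range

/-- an equivariant homeomorphism gives a homeomorphism of the orbit spaces -/
def orbHomeo (e : W ≃ₜ W') (he : Equiva C e) : Orb C W ≃ₜ Orb C W' where
  toFun := orbMap e he
  invFun := orbMap e.symm (fun g w => by
    apply e.injective
    rw [he, e.apply_symm_apply, e.apply_symm_apply])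
  left_inv x := by
    induction x using Orb.ind with
    | h a => exact congrArg _ (e.symm_apply_apply a)
  right_inv x := by
    induction x using Orb.ind with
    | h a => exact congrArg _ (e.apply_symm_apply a)
  continuous_toFun := continuous_orbMap he e.continuous
  continuous_invFun := continuous_orbMap _ e.symm.continuous

end top

section free

variable {E Z S : Type} [TopologicalSpace E] [TopologicalSpace Z] [TopologicalSpace S]
  [MulAction C E] [ContinuousConstSMul C E] [MulAction C S] [ContinuousConstSMul C S]

/-- an embedding `Q × S → Orb (E × S)`, `(q, s) ↦ [φ q, s]`, if `φ q` and `g • φ q'` differ unless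
`g = 1` -/
theorem isOpenEmbedding_orb_free {Q : Type} [TopologicalSpace Q] {φ : Q → E}
    (hφ : IsOpenEmbedding φ) (hfree : ∀ (g : C) q q', g • φ q = φ q' → g = 1) :
    IsOpenEmbedding (fun p : Q × S => (orb (φ p.1, p.2) : Orb C (E × S))) := by
  refine IsOpenEmbedding.of_continuous_injective_isOpenMap ?_ ?_ ?_
  · exact continuous_orb.comp ((hφ.continuous.comp continuous_fst).prodMk continuous_snd)
  · rintro ⟨q, s⟩ ⟨q', s'⟩ h
    obtain ⟨g, hg⟩ := orb_eq_iff.mp h
    have h1 : g • φ q = φ q' := congrArg Prod.fst hg
    have h2 : g • s = s' := congrArg Prod.snd hg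
    have h3 := hfree g q q' h1
    subst h3
    rw [one_smul] at h1 h2
    exact Prod.ext (hφ.injective h1) h2
  · exact isOpenQuotientMap_orb.isOpenMap.comp (hφ.isOpenMap.prodMap IsOpenMap.id)

end free

end Vale.Agent.P241.H402
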