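import Vale.Agent.P241.H402.Join
import Vale.Agent.P241.H175.SharpNull

/-!
# P241, block UB-G: Euler classes of characters annihilate `X#`

`nn_vv` : let `mu` be a character of `C` which is trivial on all proper subgroups. For a finite
`C`-cell space `X` there is `d` such that `x ↦ (0, x)`, `X# → ℂ_mu^d × X#`, is `C`-null-homotopic.
-/

open CategoryTheory MonoidalCategory Filter Topology OnePoint Vale.Agent.P251.G
  Vale.Agent.P251.G.LC Vale.Agent.P093.N2 Vale.Agent.P241.H588 Vale.Agent.P241.H175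
  Vale.Agent.P241.St Vale.Agent.P251.St

set_option linter.unusedSectionVars false

noncomputable section

namespace Vale.Agent.P241.H402

variable {C : Type} [Group C]

/-- the `C`-space `ℂ_mu^d` -/
def GV (mu : C →* Circle) (d : ℕ) : GSpace C := ⟨VV mu (Fin d)⟩

/-- the origin -/
def gv0 (mu : C →* Circle) (d : ℕ) : (GV mu d).carrier := VV.mk mu 0

theorem fixd_gv0 (mu : C →* Circle) (d : ℕ) : Fixd (GV mu d) (gv0 mu d) := fun g => by
  refine VV.ext (lam := mu) ?_
  change (mu g : ℂ) • (0 : Fin d → ℂ) = 0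
  rw [smul_zero]

/-- the sum of two vector spaces -/
def gvApp (mu : C →* Circle) (d d' : ℕ) :
    ((GV mu d).prod (GV mu d')).carrier → (GV mu (d + d')).carrier :=
  fun p => VV.mk mu (Fin.append (VV.v (lam := mu) p.1) (VV.v (lam := mu) p.2))

theorem gvApp_smul (mu : C →* Circle) (d d' : ℕ) (g : C) (p : ((GV mu d).prod (GV mu d')).carrier) :
    gvApp mu d d' (g • p) = g • gvApp mu d d' p := by
  refine VV.ext (lam := mu) (funext fun i => ?_)
  change Fin.append ((mu g : ℂ) • VV.v (lam := mu) p.1) ((mu g : ℂ) • VV.v (lam := mu) p.2) i =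
    (mu g : ℂ) * Fin.append (VV.v (lam := mu) p.1) (VV.v (lam := mu) p.2) i
  refine Fin.addCases (fun i => ?_) (fun i => ?_) i
  · rw [Fin.append_left, Fin.append_left]
    rfl
  · rw [Fin.append_right, Fin.append_right]
    rfl

/-- the sum as a homeomorphism -/
def gvHomeo (mu : C →* Circle) (d d' : ℕ) :
    ((GV mu d).prod (GV mu d')).carrier ≃ₜ (GV mu (d + d')).carrier :=
  (Fin.appendHomeomorph d d' : ((Fin d → ℂ) × (Fin d' → ℂ)) ≃ₜ (Fin (d + d') → ℂ))

theorem gvHomeo_apply (mu : C →* Circle) (d d' : ℕ) (p) : gvHomeo mu d d' p = gvApp mu d d' p := rfl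

/-- the sum as a morphism -/
def gvHom (mu : C →* Circle) (d d' : ℕ) :
    toLC ((GV mu d).prod (GV mu d')).und ⟶ toLC (GV mu (d + d')).und :=
  (LC.ofHomeo (X := toLC ((GV mu d).prod (GV mu d')).und) (Y := toLC (GV mu (d + d')).und)
    (gvHomeo mu d d')).hom

theorem eqv_gvHom (mu : C →* Circle) (d d' : ℕ) :
    Eqv (X := (GV mu d).prod (GV mu d')) (Y := GV mu (d + d')) (gvHom mu d d') := by
  intro g p
  induction p using OnePoint.rec with
  | infty => rfl
  | coe p => exact congrArg (OnePoint.some (X := (GV mu (d + d')).carrier)) (gvApp_smul mu d d' g p)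

/-- pointed spaces with a based map to some `ℂ_mu^d` -/
def PV (mu : C →* Circle) (B : GSpace C) (b : B.carrier) : Prop :=
  Fixd B b ∧ ∃ (d : ℕ) (φ : toLC B.und ⟶ toLC (GV mu d).und), Eqv (X := B) (Y := GV mu d) φ ∧
    app φ (b : OnePoint B.carrier) = (gv0 mu d : OnePoint (GV mu d).carrier)

theorem PV.prod {mu : C →* Circle} {B B' : GSpace C} {b : B.carrier} {b' : B'.carrier}
    (h : PV mu B b) (h' : PV mu B' b') : PV mu (B.prod B') (b, b') := by
  obtain ⟨hb, d, φ, hφ, h0⟩ := h
  obtain ⟨hb', d', φ', hφ', h0'⟩ := h'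
  refine ⟨fun g => Prod.ext (hb g) (hb' g), d + d', wr φ B' ≫ wl (GV mu d) φ' ≫ gvHom mu d d', ?_,
    ?_⟩
  · exact Eqv.comp (X := B.prod B') (Y := (GV mu d).prod B') (Z := GV mu (d + d')) (eqv_wr hφ)
      (Eqv.comp (X := (GV mu d).prod B') (Y := (GV mu d).prod (GV mu d'))
        (Z := GV mu (d + d')) (eqv_wl hφ') (eqv_gvHom mu d d'))
  · rw [app_comp, app_comp]
    have h1 : app (wr φ B') (OnePoint.some (X := (B.prod B').carrier) (b, b')) =
        LC.smash (gv0 mu d : OnePoint (GV mu d).carrier) (b' : OnePoint B'.carrier) := by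
      refine (app_wr (B := B') φ (b' : OnePoint B'.carrier) (b : OnePoint B.carrier)).trans ?_
      rw [h0]
    have h2 : app (wl (GV mu d) φ') (LC.smash (gv0 mu d : OnePoint (GV mu d).carrier)
        (b' : OnePoint B'.carrier)) = LC.smash (gv0 mu d : OnePoint (GV mu d).carrier)
          (gv0 mu d' : OnePoint (GV mu d').carrier) := by
      refine (app_wl (B := GV mu d) φ' _ _).trans ?_
      rw [h0']
    rw [h1, h2]
    refine congrArg (OnePoint.some (X := (GV mu (d + d')).carrier)) ?_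
    refine VV.ext (lam := mu) (funext fun i => ?_)
    change Fin.append (0 : Fin d → ℂ) (0 : Fin d' → ℂ) i = 0
    refine Fin.addCases (fun i => ?_) (fun i => ?_) i
    · rw [Fin.append_left]
      rfl
    · rw [Fin.append_right]
      rfl

theorem PV.self (mu : C →* Circle) (d : ℕ) : PV mu (GV mu d) (gv0 mu d) :=
  ⟨fixd_gv0 mu d, d, 𝟙 _, Eqv.id, rfl⟩

/-- the ray -/
def rayFun (mu : C →* Circle) (r : NNReal) : (GV mu 1).carrier := VV.mk mu fun _ => ((r : ℝ) : ℂ)

theorem isClosedEmbedding_rayFun (mu : C →* Circle) : IsClosedEmbedding (rayFun mu) := by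
  refine Function.LeftInverse.isClosedEmbedding
    (f := fun v : (GV mu 1).carrier => ‖VV.v (lam := mu) v 0‖₊) ?_ ?_ ?_
  · intro r
    apply NNReal.eq
    change ‖((r : ℝ) : ℂ)‖ = r
    rw [Complex.norm_real, Real.norm_eq_abs]
    exact abs_of_nonneg r.2
  · exact ((continuous_apply 0).comp (VV.continuous_v (lam := mu))).nnnorm
  · exact (VV.continuous_mk (lam := mu)).comp (continuous_pi fun _ =>
      Complex.continuous_ofReal.comp NNReal.continuous_coe)

theorem ray_gv {mu : C →* Circle} {H : Subgroup C} (hH : ∀ h ∈ H, mu h = 1) :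
    Ray H (GV mu 1) (gv0 mu 1) := by
  refine ⟨LC.ofClosed (X := HH) (Y := toLC (GV mu 1).und) (rayFun mu)
    (isClosedEmbedding_rayFun mu), ?_, ?_⟩
  · refine congrArg (OnePoint.some (X := (GV mu 1).carrier)) ?_
    exact VV.ext (lam := mu) (funext fun _ => by
      change (((0 : NNReal) : ℝ) : ℂ) = 0
      simp)
  · intro h hh s
    induction s using OnePoint.rec with
    | infty => rfl
    | coe s =>
      refine congrArg (OnePoint.some (X := (GV mu 1).carrier)) ?_
      refine VV.ext (lam := mu) (funext fun _ => ?_)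
      change (mu h : ℂ) * ((s : ℝ) : ℂ) = ((s : ℝ) : ℂ)
      rw [hH h hh, Circle.coe_one, one_mul]

/-- **The Euler class of a power of the character annihilates `X#`.** -/
theorem nn_vv [Finite C] {mu : C →* Circle} (hmu : ∀ H : Subgroup C, H ≠ ⊤ → ∀ h ∈ H, mu h = 1)
    {X : GSpace C} (hX : GFC C X) : ∃ d : ℕ, NN (GV mu d) (gv0 mu d) (sharp X) := by
  obtain ⟨B, b, ⟨-, d, φ, hφ, h0⟩, h⟩ := nn_sharp (PV mu) (fun B b h => h.1)
    (fun B B' b b' h h' => h.prod h') ⟨_, _, PV.self mu 0⟩
    (fun H hH => ⟨_, _, PV.self mu 1, ray_gv (hmu H hH)⟩) hX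
  exact ⟨d, h.mapB hφ h0⟩

end Vale.Agent.P241.H402
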